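import Mathlib

/-!
# Layer A: low-degree lines over a constant field with a polynomial curve part

`F` is a (constant size) finite field, `Y` a finite `F`-space, `r : ι → Y` a family of directions,
`E` a finite `F`-space.  A table is a function `τ : Y → E → ZMod 2`.  The curve test chooses
`i : ι`, `y : Y` and a polynomial curve `C` of degree at most `D` in `E` at random and checks that
the sum of `τ (y + u • r i) (C u)` over `u : F` is zero.
-/

namespace Vale.Agent.P318.S

open Finset
open scoped BigOperators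

/-- The polynomial curve with coefficients `C`. -/
def crv {F M : Type*} [Semiring F] [AddCommMonoid M] [Module F M] {D : ℕ} (C : Fin (D + 1) → M)
    (u : F) : M := ∑ j : Fin (D + 1), u ^ (j : ℕ) • C j

/-- `h : F → M` is given by a polynomial of degree at most `d` with coefficients in `M`. -/
def Low {F M : Type*} [Semiring F] [AddCommMonoid M] [Module F M] (d : ℕ) (h : F → M) : Prop :=
  ∃ p : Fin (d + 1) → M, ∀ u, h u = crv p u

/-- The sign of a bit. -/
def sgn (a : ZMod 2) : ℝ := if a = 0 then 1 else -1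

/-- Indicator that `a ≠ 0`. -/
def ind (a : ZMod 2) : ℝ := if a = 0 then 0 else 1

section

variable {Y E ι : Type*} [AddCommGroup Y] [Fintype Y] [AddCommGroup E] [Fintype E] [Fintype ι]

/-- The nontrivial additive characters (of order two) are small on the family `r`. -/
def CharBd (r : ι → Y) (lam : ℝ) : Prop :=
  ∀ f : Y →+ ZMod 2, f ≠ 0 → |𝔼 i : ι, sgn (f (r i))| ≤ lam

/-- Mixing of the directions, for nonnegative functions. -/
def Mix (F : Type*) [Field F] [Module F Y] (r : ι → Y) (A lam : ℝ) : Prop :=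
  ∀ g : Y → ℝ, (∀ y, 0 ≤ g y) → ∀ u : F, u ≠ 0 →
    𝔼 i : ι, 𝔼 y : Y, g y * g (y + u • r i) ≤ A * (𝔼 y : Y, g y) ^ 2 + lam * 𝔼 y : Y, g y ^ 2

variable (F : Type*) [Field F] [Fintype F] [Module F Y] [Module F E]

/-- The sum of the table along the curve `C` in direction `r` from `y`. -/
def tsum {D : ℕ} (τ : Y → E → ZMod 2) (r y : Y) (C : Fin (D + 1) → E) : ZMod 2 :=
  ∑ u : F, τ (y + u • r) (crv C u)

/-- Indicator that the curve test fails. -/
def bad {D : ℕ} (τ : Y → E → ZMod 2) (r y : Y) (C : Fin (D + 1) → E) : ℝ :=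
  ind (tsum F τ r y C)

/-- Probability that the curve test in direction `r` through the table of `y` fails. -/
noncomputable def epsAt (D : ℕ) (τ : Y → E → ZMod 2) (r y : Y) : ℝ :=
  𝔼 C : Fin (D + 1) → E, bad F τ r y C

/-- Probability that the curve test in direction `r` fails. -/
noncomputable def epsDir (D : ℕ) (τ : Y → E → ZMod 2) (r : Y) : ℝ :=
  𝔼 y : Y, epsAt F D τ r y

/-- Probability that the curve test fails. -/
noncomputable def eps (D : ℕ) (r : ι → Y) (τ : Y → E → ZMod 2) : ℝ :=
  𝔼 i : ι, epsDir F D τ (r i)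

/-- Probability that the curve test fails, given that the curve passes through `(y, c)`. -/
noncomputable def del (D : ℕ) (r : ι → Y) (τ : Y → E → ZMod 2) (y : Y) (c : E) : ℝ :=
  𝔼 i : ι, 𝔼 C : Fin D → E, bad F τ (r i) y (Fin.cons c C : Fin (D + 1) → E)

omit [AddCommGroup Y] [AddCommGroup E] in
/-- Fraction of the positions in which two tables differ. -/
noncomputable def fdist (σ τ : Y → E → ZMod 2) : ℝ := 𝔼 y : Y, 𝔼 c : E, ind (σ y c + τ y c)

end

/-! ### Reading a codeword -/

section read

variable {F Y ι ρ : Type*} [Field F] [Fintype F] [AddCommGroup Y] [Module F Y] [Fintype Y]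
  [Fintype ι] [Fintype ρ]

/-- The table of a codeword. -/
def word (φ : F →+ ZMod 2) (b : Y → ZMod 2) (s : Y → ρ → F) (y : Y) (c : ρ → F) : ZMod 2 :=
  b y + φ (∑ j, c j * s y j)

/-- The queries of a READ at the point `y` for the component vector `cst`: two curves, in the
directions `r (i 0)`, `r (i 1)`, with values `cst + c` and `c` at zero and otherwise random
coefficients `C 0`, `C 1`; the queried positions are those at `u ≠ 0`. -/
def rdPos {D : ℕ} (r : ι → Y) (y : Y) (cst : ρ → F) (i : Fin 2 → ι)
    (C : Fin 2 → Fin D → ρ → F) (c : ρ → F) (p : Fin 2 × {u : F // u ≠ 0}) : Y × (ρ → F) :=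
  (y + (p.2 : F) • r (i p.1),
    crv (Fin.cons (if p.1 = 0 then cst + c else c) (C p.1) : Fin (D + 1) → ρ → F) (p.2 : F))

/-- The sum of the table over the queries of a READ. -/
def rdSum [DecidableEq F] {D : ℕ} (σ : Y → (ρ → F) → ZMod 2) (r : ι → Y) (y : Y) (cst : ρ → F)
    (i : Fin 2 → ι) (C : Fin 2 → Fin D → ρ → F) (c : ρ → F) : ZMod 2 :=
  ∑ p : Fin 2 × {u : F // u ≠ 0}, σ (rdPos r y cst i C c p).1 (rdPos r y cst i C c p).2

end read

end Vale.Agent.P318.S
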