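import Vale.Agent.P318.S.Defs

/-!
# The middle layer: geometry, the tests T0-T4, violations and pair counts

Everything here is a definition.  `F` is the constant field, `V` one block (a finite `F`-space),
`Y = Fin 3 → V` the base space, `r : ι → Y` the directions, `Z` the set of the cube points,
`K` the index set of the certificate functions of one block, `Comp K` the set of components of
`s_y`, so that the tables are functions `σ : Y → (Comp K → F) → ZMod 2`.
-/

namespace Vale.Agent.P318.S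

open Finset
open scoped BigOperators

/-- The components of `s_y`: `inl 0` is the constant one, `inl 1, inl 2, inl 3` are `f₁, f₂, f₃`,
`inl 4` is `H = f₁ f₂`, and `inr (b, k)` is the quotient of the `k`-th certificate function of
block `b`.  (Number level: `inl j` is component `j`, `inr (b, k)` is component `5 + b * n + k`.) -/
abbrev Comp (K : Type*) := Fin 5 ⊕ (Fin 3 × K)

/-- The component `1`. -/
def cOne {K : Type*} : Comp K := Sum.inl 0
/-- The component `f_b`. -/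
def cF {K : Type*} (b : Fin 3) : Comp K := Sum.inl (Fin.castSucc b).succ
/-- The component `H`. -/
def cH {K : Type*} : Comp K := Sum.inl 4
/-- The component `h_k` of block `b`. -/
def cC {K : Type*} (b : Fin 3) (k : K) : Comp K := Sum.inr (b, k)

section geometry

/-- Directions of `Y = Fin 3 → V` from directions of `V`: one independent direction per block. -/
def dir3 {V ι : Type*} (r : ι → V) (i : Fin 3 → ι) : Fin 3 → V := fun b => r (i b)

variable {F V ι Z K : Type*} [Field F] [Fintype F] [AddCommGroup V] [Module F V] [Fintype V]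
  [Fintype ι] [DecidableEq Z] [Fintype K]

/-- What the geometry of one block has to provide.  `t` bounds the degree of `δ_z` along the
directions. -/
structure GeoOK (t : ℕ) (lam : ℝ) (pt : Z → V) (del : Z → V → F) (zf : K → V → F)
    (r : ι → V) : Prop where
  /-- the directions are not zero -/
  ne_zero : ∀ i, r i ≠ 0
  /-- the directions are spread -/
  char : CharBd r lam
  /-- `δ_z` is the indicator of `z` on the cube -/
  del_pt : ∀ z w, del z (pt w) = if z = w then 1 else 0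
  /-- the certificate functions vanish on the cube -/
  zf_pt : ∀ k z, zf k (pt z) = 0
  /-- degree of `δ_z` -/
  del_low : ∀ z i v, Low t fun u : F => del z (v + u • r i)
  /-- degree of the certificate functions -/
  zf_low : ∀ k i v, Low 2 fun u : F => zf k (v + u • r i)
  /-- certificates -/
  cert : ∀ z w, ∃ h : K → V → F, (∀ k i v, Low (3 * t) fun u : F => h k (v + u • r i)) ∧
    ∀ v, del z v * del w v = (if z = w then del z v else 0) + ∑ k, zf k v * h k v

end geometry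

section source

variable {F Z : Type*} [Field F]

/-- The system `X_a X_b + X_c = β` (one table per block) has a solution. -/
def Solv (sys : Finset (Z × Z × Z)) (bet : Z × Z × Z → F) : Prop :=
  ∃ f : Fin 3 → Z → F, ∀ e ∈ sys, f 0 e.1 * f 1 e.2.1 + f 2 e.2.2 = bet e

/-- The system has a solution with one table. -/
def Solv1 (sys : Finset (Z × Z × Z)) (bet : Z × Z × Z → F) : Prop :=
  ∃ g : Z → F, ∀ e ∈ sys, g e.1 * g e.2.1 + g e.2.2 = bet e

variable {V : Type*}

/-- The product `δ_a(y_0) δ_b(y_1) δ_c(y_2)`. -/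
def del3 (del : Z → V → F) (e : Z × Z × Z) (y : Fin 3 → V) : F :=
  del e.1 (y 0) * del e.2.1 (y 1) * del e.2.2 (y 2)

/-- `ψ_* = ∑_e δ_e`. -/
def psi (del : Z → V → F) (sys : Finset (Z × Z × Z)) (y : Fin 3 → V) : F :=
  ∑ e ∈ sys, del3 del e y

/-- `ψ_1 = ∑_e β_e δ_e`. -/
def psi1 (del : Z → V → F) (sys : Finset (Z × Z × Z)) (bet : Z × Z × Z → F) (y : Fin 3 → V) : F :=
  ∑ e ∈ sys, bet e * del3 del e y

end source

section coeff

variable {F V Z K : Type*} [Field F] [DecidableEq K]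

/-- Coefficients of the rank one test. -/
def cst1 (a b : Fin 2 → F) : Comp K → F := fun j =>
  (if j = cOne then a 0 * b 0 else 0) + (if j = cF 0 then a 1 * b 0 else 0) +
    (if j = cF 1 then a 0 * b 1 else 0) + (if j = cH then a 1 * b 1 else 0)

/-- Coefficients of the test of the system: `γ (ψ_* (H + f₃) + ψ_1 + ∑ Z_k h_k)`. -/
def cst2 (del : Z → V → F) (zf : K → V → F) (sys : Finset (Z × Z × Z)) (bet : Z × Z × Z → F)
    (γ : F) (y : Fin 3 → V) : Comp K → F
  | Sum.inl j => γ * ((if j = 0 then psi1 del sys bet y else 0) +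
      (if j = 3 then psi del sys y else 0) + (if j = 4 then psi del sys y else 0))
  | Sum.inr p => γ * zf p.2 (y p.1)

/-- The coefficient vector `γ e_j`. -/
def cstE (γ : F) (j : Comp K) : Comp K → F := Pi.single j γ

end coeff

/-! ### Violations, ideal (for a codeword) and real -/

section ideal

variable {F V Z K : Type*} [Field F] [Fintype F] [AddCommGroup V] [Fintype V] [Fintype K]
  [DecidableEq K]

/-- Ideal violation of T1. -/
noncomputable def U1 (φ : F →+ ZMod 2) (s : (Fin 3 → V) → Comp K → F) : ℝ :=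
  𝔼 y : Fin 3 → V, 𝔼 a : Fin 2 → F, 𝔼 b : Fin 2 → F, ind (φ (∑ j, cst1 a b j * s y j))

/-- Ideal violation of T2. -/
noncomputable def U2 (φ : F →+ ZMod 2) (del : Z → V → F) (zf : K → V → F)
    (sys : Finset (Z × Z × Z)) (bet : Z × Z × Z → F) (s : (Fin 3 → V) → Comp K → F) : ℝ :=
  𝔼 y : Fin 3 → V, 𝔼 γ : F, ind (φ (∑ j, cst2 del zf sys bet γ y j * s y j))

/-- The second point of the test T3 for block `b`: the blocks other than `b` are shifted. -/
def sh (b : Fin 3) (y x : Fin 3 → V) : Fin 3 → V := y + Function.update x b 0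

/-- Ideal violation of T3 for block `b`. -/
noncomputable def U3 (φ : F →+ ZMod 2) (b : Fin 3) (s : (Fin 3 → V) → Comp K → F) : ℝ :=
  𝔼 y : Fin 3 → V, 𝔼 x : Fin 3 → V, 𝔼 γ : F,
    ind (φ (∑ j, cstE γ (cF b) j * s y j) + φ (∑ j, cstE γ (cF b) j * s (sh b y x) j))

/-- Ideal violation of T4. -/
noncomputable def U4 (φ : F →+ ZMod 2) (s : (Fin 3 → V) → Comp K → F) : ℝ :=
  𝔼 y : Fin 3 → V, 𝔼 γ : F, ind (φ (∑ j, cstE γ cOne j * s y j) + φ γ)

end ideal

section real

variable {F V ι Z K : Type*} [Field F] [Fintype F] [DecidableEq F] [AddCommGroup V] [Module F V]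
  [Fintype V] [Fintype ι] [Fintype K] [DecidableEq K]

/-- The randomness of a READ: two directions, two curves, one offset. -/
abbrev RSeed (ι F K : Type*) (D : ℕ) :=
  (Fin 2 → ι) × (Fin 2 → Fin D → Comp K → F) × (Comp K → F)

/-- The sum of the queries of a READ at `y` with coefficient vector `cst`. -/
def rd {D : ℕ} (σ : (Fin 3 → V) → (Comp K → F) → ZMod 2) (r : ι → Fin 3 → V) (y : Fin 3 → V)
    (cst : Comp K → F) (ω : RSeed ι F K D) : ZMod 2 :=
  rdSum σ r y cst ω.1 ω.2.1 ω.2.2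

/-- Violation of T1. -/
noncomputable def V1 (D : ℕ) (r : ι → Fin 3 → V) (σ : (Fin 3 → V) → (Comp K → F) → ZMod 2) : ℝ :=
  𝔼 y : Fin 3 → V, 𝔼 a : Fin 2 → F, 𝔼 b : Fin 2 → F, 𝔼 ω : RSeed ι F K D,
    ind (rd σ r y (cst1 a b) ω)

/-- Violation of T2. -/
noncomputable def V2 (D : ℕ) (r : ι → Fin 3 → V) (del : Z → V → F) (zf : K → V → F)
    (sys : Finset (Z × Z × Z)) (bet : Z × Z × Z → F)
    (σ : (Fin 3 → V) → (Comp K → F) → ZMod 2) : ℝ :=
  𝔼 y : Fin 3 → V, 𝔼 γ : F, 𝔼 ω : RSeed ι F K D,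
    ind (rd σ r y (cst2 del zf sys bet γ y) ω)

/-- Violation of T3 for block `b`. -/
noncomputable def V3 (D : ℕ) (r : ι → Fin 3 → V) (b : Fin 3)
    (σ : (Fin 3 → V) → (Comp K → F) → ZMod 2) : ℝ :=
  𝔼 y : Fin 3 → V, 𝔼 x : Fin 3 → V, 𝔼 γ : F, 𝔼 ω : RSeed ι F K D, 𝔼 ω' : RSeed ι F K D,
    ind (rd σ r y (cstE γ (cF b)) ω + rd σ r (sh b y x) (cstE γ (cF b)) ω')

/-- Violation of T4. -/
noncomputable def V4 (D : ℕ) (φ : F →+ ZMod 2) (r : ι → Fin 3 → V)
    (σ : (Fin 3 → V) → (Comp K → F) → ZMod 2) : ℝ :=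
  𝔼 y : Fin 3 → V, 𝔼 γ : F, 𝔼 ω : RSeed ι F K D, ind (rd σ r y (cstE γ cOne) ω + φ γ)

/-! ### Pair counts -/

/-- `k (w - k)` for the family of positions `pos`, where `w` is the number of the positions and
`k` the number of those at which `σ` is nonzero. -/
noncomputable def qd {Y E J : Type*} [Fintype J] (σ : Y → E → ZMod 2) (pos : J → Y × E) : ℝ :=
  (∑ j, ind (σ (pos j).1 (pos j).2)) *
    ((Fintype.card J : ℝ) - ∑ j, ind (σ (pos j).1 (pos j).2))

/-- The positions of T0. -/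
def pos0 {D : ℕ} (r : ι → Fin 3 → V) (y : Fin 3 → V) (i : ι) (C : Fin (D + 1) → Comp K → F)
    (u : F) : (Fin 3 → V) × (Comp K → F) := (y + u • r i, crv C u)

/-- The positions of a READ. -/
def posR {D : ℕ} (r : ι → Fin 3 → V) (y : Fin 3 → V) (cst : Comp K → F) (ω : RSeed ι F K D)
    (p : Fin 2 × {u : F // u ≠ 0}) : (Fin 3 → V) × (Comp K → F) :=
  rdPos r y cst ω.1 ω.2.1 ω.2.2 p

/-- The positions of two READs. -/
def posRR {D : ℕ} (r : ι → Fin 3 → V) (y y' : Fin 3 → V) (cst cst' : Comp K → F)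
    (ω ω' : RSeed ι F K D) :
    (Fin 2 × {u : F // u ≠ 0}) ⊕ (Fin 2 × {u : F // u ≠ 0}) → (Fin 3 → V) × (Comp K → F) :=
  Sum.elim (posR r y cst ω) (posR r y' cst' ω')

/-- Pair count of T0. -/
noncomputable def Q0 (D : ℕ) (r : ι → Fin 3 → V) (σ : (Fin 3 → V) → (Comp K → F) → ZMod 2) : ℝ :=
  𝔼 i : ι, 𝔼 y : Fin 3 → V, 𝔼 C : Fin (D + 1) → Comp K → F, qd σ (pos0 r y i C)

/-- Pair count of T1. -/
noncomputable def Q1 (D : ℕ) (r : ι → Fin 3 → V) (σ : (Fin 3 → V) → (Comp K → F) → ZMod 2) : ℝ :=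
  𝔼 y : Fin 3 → V, 𝔼 a : Fin 2 → F, 𝔼 b : Fin 2 → F, 𝔼 ω : RSeed ι F K D,
    qd σ (posR r y (cst1 a b) ω)

/-- Pair count of T2. -/
noncomputable def Q2 (D : ℕ) (r : ι → Fin 3 → V) (del : Z → V → F) (zf : K → V → F)
    (sys : Finset (Z × Z × Z)) (bet : Z × Z × Z → F)
    (σ : (Fin 3 → V) → (Comp K → F) → ZMod 2) : ℝ :=
  𝔼 y : Fin 3 → V, 𝔼 γ : F, 𝔼 ω : RSeed ι F K D,
    qd σ (posR r y (cst2 del zf sys bet γ y) ω)

/-- Pair count of T3 for block `b`. -/
noncomputable def Q3 (D : ℕ) (r : ι → Fin 3 → V) (b : Fin 3)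
    (σ : (Fin 3 → V) → (Comp K → F) → ZMod 2) : ℝ :=
  𝔼 y : Fin 3 → V, 𝔼 x : Fin 3 → V, 𝔼 γ : F, 𝔼 ω : RSeed ι F K D, 𝔼 ω' : RSeed ι F K D,
    qd σ (posRR r y (sh b y x) (cstE γ (cF b)) (cstE γ (cF b)) ω ω')

/-- Pair count of T4. -/
noncomputable def Q4 (D : ℕ) (r : ι → Fin 3 → V)
    (σ : (Fin 3 → V) → (Comp K → F) → ZMod 2) : ℝ :=
  𝔼 y : Fin 3 → V, 𝔼 γ : F, 𝔼 ω : RSeed ι F K D, qd σ (posR r y (cstE γ cOne) ω)

/-- The mean of the signs of the table; `1 - mean σ ^ 2 = 4 n₀ n₁ / n²`. -/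
noncomputable def mean {Y E : Type*} [Fintype Y] [Fintype E] (σ : Y → E → ZMod 2) : ℝ :=
  𝔼 y : Y, 𝔼 c : E, sgn (σ y c)

/-- The table is balanced in every fibre. -/
def Bal {Y E : Type*} [Fintype E] (σ : Y → E → ZMod 2) : Prop := ∀ y, 𝔼 c : E, sgn (σ y c) = 0

/-- The total violation, with weights `m 0, .., m 4`. -/
noncomputable def violA (D : ℕ) (φ : F →+ ZMod 2) (r : ι → Fin 3 → V) (del : Z → V → F)
    (zf : K → V → F) (sys : Finset (Z × Z × Z)) (bet : Z × Z × Z → F) (m : Fin 5 → ℕ)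
    (σ : (Fin 3 → V) → (Comp K → F) → ZMod 2) : ℝ :=
  m 0 * eps F D r σ + m 1 * V1 D r σ + m 2 * V2 D r del zf sys bet σ +
    m 3 * ∑ b, V3 D r b σ + m 4 * V4 D φ r σ

/-- The total pair count, with weights `m 0, .., m 4`. -/
noncomputable def quadA (D : ℕ) (r : ι → Fin 3 → V) (del : Z → V → F)
    (zf : K → V → F) (sys : Finset (Z × Z × Z)) (bet : Z × Z × Z → F) (m : Fin 5 → ℕ)
    (σ : (Fin 3 → V) → (Comp K → F) → ZMod 2) : ℝ :=
  m 0 * Q0 D r σ + m 1 * Q1 D r σ + m 2 * Q2 D r del zf sys bet σ +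
    m 3 * ∑ b, Q3 D r b σ + m 4 * Q4 D r σ

end real

/-- The total weight `∑ m_T w_T (w_T - 1)`: the arities are `q`, `2(q-1)` (one READ) and `4(q-1)`
(two READs; T3 is done for three blocks). -/
def wA (q : ℕ) (m : Fin 5 → ℕ) : ℝ :=
  m 0 * (q * (q - 1)) + (m 1 + m 2 + m 4) * ((2 * (q - 1)) * (2 * (q - 1) - 1)) +
    3 * m 3 * ((4 * (q - 1)) * (4 * (q - 1) - 1))

end Vale.Agent.P318.S
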