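import Vale.Agent.P318.S.Fourier

/-!
# Polynomial curves: shift, injectivity, moments
-/

namespace Vale.Agent.P318.S

open Finset
open scoped BigOperators

section basic

variable {F M : Type*} [Field F] [AddCommGroup M] [Module F M] {D : ℕ}

theorem crv_zero (C : Fin (D + 1) → M) : crv C (0 : F) = C 0 := by
  rw [crv, Fin.sum_univ_succ]
  simp

theorem crv_add (C C' : Fin (D + 1) → M) (u : F) : crv (C + C') u = crv C u + crv C' u := by
  simp [crv, smul_add, sum_add_distrib]

theorem crv_cons (c : M) (C : Fin D → M) (u : F) :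
    crv (Fin.cons c C : Fin (D + 1) → M) u = c + ∑ j : Fin D, u ^ ((j : ℕ) + 1) • C j := by
  rw [crv, Fin.sum_univ_succ]
  simp

/-- The shifted coefficients. -/
def shc (u0 : F) (C : Fin (D + 1) → M) (k : Fin (D + 1)) : M :=
  ∑ j : Fin (D + 1), ((j : ℕ).choose k * u0 ^ ((j : ℕ) - k) : F) • C j

theorem crv_shc (u0 u : F) (C : Fin (D + 1) → M) : crv (shc u0 C) u = crv C (u + u0) := by
  simp only [crv, shc, smul_sum, smul_smul]
  rw [sum_comm]
  refine sum_congr rfl fun j _ => ?_
  rw [← sum_smul]
  congr 1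
  rw [add_pow, ← Fin.sum_univ_eq_sum_range (fun m => u ^ m * u0 ^ ((j : ℕ) - m) *
    ((j : ℕ).choose m : F)) ((j : ℕ) + 1)]
  have hj : (j : ℕ) + 1 ≤ D + 1 := j.2
  rw [Fin.sum_univ_eq_sum_range (fun m => u ^ m * u0 ^ ((j : ℕ) - m) *
    ((j : ℕ).choose m : F)) ((j : ℕ) + 1), Fin.sum_univ_eq_sum_range (fun m => u ^ m *
    (((j : ℕ).choose m : F) * u0 ^ ((j : ℕ) - m))) (D + 1),
    ← Finset.sum_subset (range_subset_range.2 hj)]
  · exact sum_congr rfl fun m _ => by ring
  · intro m _ hm
    rw [Nat.choose_eq_zero_of_lt (by simpa using hm)]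
    simp

theorem shc_add (u0 : F) (C C' : Fin (D + 1) → M) : shc u0 (C + C') = shc u0 C + shc u0 C' := by
  funext k
  simp [shc, smul_add, sum_add_distrib]

end basic

section fin

variable {F M : Type*} [Field F] [Fintype F] [AddCommGroup M] [Module F M] {D : ℕ}

theorem sum_pow_mid {q m : ℕ} (hq : Fintype.card F = q) (h1 : 1 ≤ m) (h2 : m < 2 * (q - 1)) :
    ∑ u : F, u ^ m = if m = q - 1 then -1 else 0 := by
  classical
  have h := FiniteField.sum_pow_units F m
  rw [hq] at h
  have h0 : ∑ u : F, u ^ m = ∑ x : Fˣ, ((x : F) ^ m) := by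
    rw [← Fintype.sum_subtype_add_sum_subtype (fun u : F => u ≠ 0) (fun u => u ^ m)]
    have e2 : ∑ i : {u : F // ¬ u ≠ 0}, (i : F) ^ m = 0 := by
      refine sum_eq_zero fun x _ => ?_
      have : (x : F) = 0 := not_not.1 x.2
      rw [this, zero_pow (by omega)]
    rw [e2, add_zero]
    exact (Fintype.sum_equiv unitsEquivNeZero _ _ fun x => rfl).symm
  rw [h0, h]
  congr 1
  apply propext
  constructor
  · rintro ⟨k, hk⟩
    have hk0 : k ≠ 0 := by rintro rfl; omega
    have hk2 : k < 2 := by
      by_contra h3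
      push Not at h3
      have : (q - 1) * 2 ≤ (q - 1) * k := Nat.mul_le_mul_left _ h3
      omega
    have : k = 1 := by omega
    rw [hk, this, mul_one]
  · intro h
    rw [h]

/-- The coefficients of a curve are moments. -/
theorem moment_crv {q : ℕ} (hq : Fintype.card F = q) (hD : D + 2 ≤ q) (C : Fin (D + 1) → M)
    (k : Fin (D + 1)) : ∑ u : F, u ^ (q - 1 - (k : ℕ)) • crv C u = -C k := by
  simp only [crv, smul_sum, smul_smul, ← pow_add]
  rw [sum_comm]
  simp only [← sum_smul]
  have hk := k.2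
  rw [Finset.sum_eq_single k]
  · rw [sum_pow_mid hq (by omega) (by omega), if_pos (by omega)]
    simp
  · intro j _ hj
    have hj2 := j.2
    rw [sum_pow_mid hq (by omega) (by omega), if_neg, zero_smul]
    intro h
    exact hj (Fin.ext (by omega))
  · simp

theorem crv_injective {q : ℕ} (hq : Fintype.card F = q) (hD : D + 2 ≤ q)
    {C C' : Fin (D + 1) → M} (h : ∀ u : F, crv C u = crv C' u) : C = C' := by
  funext k
  have h1 := moment_crv hq hD C k
  have h2 := moment_crv hq hD C' k
  simp only [h] at h1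
  rw [h1] at h2
  exact neg_injective h2

theorem shc_injective {q : ℕ} (hq : Fintype.card F = q) (hD : D + 2 ≤ q) (u0 : F) :
    Function.Injective (shc u0 : (Fin (D + 1) → M) → _) := by
  intro C C' h
  refine crv_injective hq hD fun u => ?_
  have := congrArg (fun A => crv A (u - u0)) h
  simpa [crv_shc] using this

theorem shc_bijective [Finite M] {q : ℕ} (hq : Fintype.card F = q) (hD : D + 2 ≤ q) (u0 : F) :
    Function.Bijective (shc u0 : (Fin (D + 1) → M) → _) :=
  (Finite.injective_iff_bijective).1 (shc_injective hq hD u0)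

/-- Interpolation formula. -/
theorem interp {q : ℕ} (hq : Fintype.card F = q) (h : F → M) (u : F) :
    h u = (∑ v, h v) - ∑ k ∈ range q, u ^ k • ∑ v, v ^ (q - 1 - k) • h v := by
  classical
  have key : ∀ v : F, ∑ k ∈ range q, u ^ k * v ^ (q - 1 - k) = if v = u then 0 else 1 := by
    intro v
    split_ifs with hv
    · subst hv
      have : ∀ k ∈ range q, v ^ k * v ^ (q - 1 - k) = v ^ (q - 1) := by
        intro k hk
        rw [← pow_add]
        congr 1
        have := mem_range.1 hk
        omega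
      rw [sum_congr rfl this, sum_const, card_range, nsmul_eq_mul, ← hq, FiniteField.cast_card_eq_zero,
        zero_mul]
    · have h1 := (Commute.all u v).geom_sum₂_mul q
      have h2 : u ^ q = u := by rw [← hq]; exact FiniteField.pow_card u
      have h3 : v ^ q = v := by rw [← hq]; exact FiniteField.pow_card v
      rw [h2, h3] at h1
      exact mul_right_cancel₀ (sub_ne_zero.2 (Ne.symm hv)) (by rw [h1, one_mul])
  have : ∑ k ∈ range q, u ^ k • ∑ v, v ^ (q - 1 - k) • h v =
      ∑ v, (if v = u then (0 : F) else 1) • h v := by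
    simp only [smul_sum, smul_smul]
    rw [sum_comm]
    refine sum_congr rfl fun v _ => ?_
    rw [← sum_smul, key]
  rw [this, ← sum_sub_distrib, Finset.sum_eq_single u]
  · simp
  · intro v _ hv
    simp [hv]
  · simp

/-- Vanishing moments imply low degree. -/
theorem low_of_moments {q : ℕ} (hq : Fintype.card F = q) (hD : D + 2 ≤ q) (h : F → M)
    (hm : ∀ j ≤ D, ∑ u : F, u ^ j • h u = 0) : Low (q - 2 - D) h := by
  refine ⟨fun k => if (k : ℕ) = 0 then (∑ v, h v) - ∑ v, v ^ (q - 1) • h v
    else -∑ v, v ^ (q - 1 - (k : ℕ)) • h v, fun u => ?_⟩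
  rw [interp hq h u, crv]
  have hm' : ∀ k ∈ range q, k ∉ range (q - 2 - D + 1) →
      u ^ k • ∑ v, v ^ (q - 1 - k) • h v = 0 := by
    intro k hk hk'
    rw [hm (q - 1 - k) (by simp only [mem_range] at hk hk'; omega), smul_zero]
  rw [← Finset.sum_subset (range_subset_range.2 (by omega)) hm',
    Fin.sum_univ_eq_sum_range (fun k => u ^ k • if k = 0 then (∑ v, h v) - ∑ v, v ^ (q - 1) • h v
    else -∑ v, v ^ (q - 1 - k) • h v) (q - 2 - D + 1), sum_range_succ', sum_range_succ']
  simp only [pow_zero, one_smul, if_true, Nat.add_eq_zero_iff, one_ne_zero, and_false, if_false,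
    smul_neg, sum_neg_distrib, Nat.sub_zero]
  abel

end fin

end Vale.Agent.P318.S
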