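import Mathlib

/-!
# Functions that are polynomials of small degree along lines

`PolyLe F g d`: the function `g : F → W` is a polynomial of degree at most `d` with coefficients in
the vector space `W`. `DegAlong F f r d`: the function `f : Y → W` is a polynomial of degree at
most `d` on every line `y + u • r`.
-/

namespace Vale.Agent.P318.S

open Finset

section One

variable {F : Type*} [Field F] {W W' : Type*} [AddCommGroup W] [Module F W] [AddCommGroup W']
  [Module F W']

/-- `g` is a polynomial function of degree at most `d`. -/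
def PolyLe (F : Type*) [Field F] {W : Type*} [AddCommGroup W] [Module F W] (g : F → W) (d : ℕ) :
    Prop :=
  ∃ c : ℕ → W, ∀ u : F, g u = ∑ i ∈ range (d + 1), u ^ i • c i

theorem PolyLe.congr {g g' : F → W} {d : ℕ} (h : PolyLe F g d) (hg : ∀ u, g' u = g u) :
    PolyLe F g' d := by
  obtain ⟨c, hc⟩ := h
  exact ⟨c, fun u => by rw [hg, hc]⟩

theorem PolyLe.mono {g : F → W} {d e : ℕ} (h : PolyLe F g d) (hde : d ≤ e) : PolyLe F g e := by
  obtain ⟨c, hc⟩ := h
  refine ⟨fun i => if i < d + 1 then c i else 0, fun u => ?_⟩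
  rw [hc u]
  have h1 : range (d + 1) ⊆ range (e + 1) := by
    intro i hi; simp only [mem_range] at *; omega
  rw [← sum_subset h1]
  · apply sum_congr rfl
    intro i hi
    simp only [if_pos (mem_range.1 hi)]
  · intro i _ hi
    simp only [if_neg (fun h => hi (mem_range.2 h)), smul_zero]

theorem PolyLe.const (w : W) (d : ℕ) : PolyLe F (fun _ : F => w) d := by
  refine PolyLe.mono (d := 0) ⟨fun _ => w, fun u => by simp⟩ (Nat.zero_le _)

theorem PolyLe.zero (d : ℕ) : PolyLe F (fun _ : F => (0 : W)) d := PolyLe.const 0 d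

theorem PolyLe.add {g h : F → W} {d : ℕ} (hg : PolyLe F g d) (hh : PolyLe F h d) :
    PolyLe F (fun u => g u + h u) d := by
  obtain ⟨c, hc⟩ := hg
  obtain ⟨c', hc'⟩ := hh
  exact ⟨fun i => c i + c' i, fun u => by
    simp only [hc, hc', ← sum_add_distrib, smul_add]⟩

theorem PolyLe.map {g : F → W} {d : ℕ} (hg : PolyLe F g d) (L : W →ₗ[F] W') :
    PolyLe F (fun u => L (g u)) d := by
  obtain ⟨c, hc⟩ := hg
  exact ⟨fun i => L (c i), fun u => by simp only [hc, map_sum, map_smul]⟩

theorem PolyLe.const_smul {g : F → W} {d : ℕ} (hg : PolyLe F g d) (a : F) :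
    PolyLe F (fun u => a • g u) d := hg.map (LinearMap.lsmul F W a)

theorem PolyLe.neg {g : F → W} {d : ℕ} (hg : PolyLe F g d) :
    PolyLe F (fun u => - g u) d := by
  exact (hg.const_smul (-1)).congr fun _ => by rw [neg_smul, one_smul]

theorem PolyLe.sub {g h : F → W} {d : ℕ} (hg : PolyLe F g d) (hh : PolyLe F h d) :
    PolyLe F (fun u => g u - h u) d :=
  (hg.add hh.neg).congr fun _ => sub_eq_add_neg _ _

theorem PolyLe.sum {ι : Type*} (s : Finset ι) {g : ι → F → W} {d : ℕ}
    (hg : ∀ i ∈ s, PolyLe F (g i) d) : PolyLe F (fun u => ∑ i ∈ s, g i u) d := by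
  classical
  induction s using Finset.induction_on with
  | empty => exact (PolyLe.zero d).congr fun u => by simp
  | insert a s ha ih =>
    refine ((hg a (mem_insert_self _ _)).add (ih fun i hi => hg i (mem_insert_of_mem hi))).congr
      fun u => ?_
    simp only [sum_insert ha]

theorem PolyLe.pi {ι : Type*} {V : ι → Type*} [∀ i, AddCommGroup (V i)] [∀ i, Module F (V i)]
    {g : F → ∀ i, V i} {d : ℕ} (hg : ∀ i, PolyLe F (fun u => g u i) d) : PolyLe F g d := by
  choose c hc using hg
  refine ⟨fun k i => c i k, fun u => ?_⟩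
  funext i
  rw [Finset.sum_apply]
  exact hc i u

theorem PolyLe.pi_iff {ι : Type*} {V : ι → Type*} [∀ i, AddCommGroup (V i)] [∀ i, Module F (V i)]
    {g : F → ∀ i, V i} {d : ℕ} : PolyLe F g d ↔ ∀ i, PolyLe F (fun u => g u i) d :=
  ⟨fun h i => h.map (LinearMap.proj i), PolyLe.pi⟩

theorem PolyLe.prodMk {g : F → W} {h : F → W'} {d : ℕ} (hg : PolyLe F g d) (hh : PolyLe F h d) :
    PolyLe F (fun u => (g u, h u)) d := by
  refine ((hg.map (LinearMap.inl F W W')).add (hh.map (LinearMap.inr F W W'))).congr fun u => ?_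
  simp

theorem PolyLe.monomial (w : W) (k : ℕ) : PolyLe F (fun u : F => u ^ k • w) k := by
  refine ⟨fun i => if i = k then w else 0, fun u => ?_⟩
  rw [Finset.sum_eq_single k]
  · simp
  · intro i _ hi
    simp [hi]
  · intro h; exact absurd (mem_range.2 (Nat.lt_succ_self k)) h

theorem PolyLe.smul {a : F → F} {g : F → W} {d e : ℕ} (ha : PolyLe F a d) (hg : PolyLe F g e) :
    PolyLe F (fun u => a u • g u) (d + e) := by
  obtain ⟨c, hc⟩ := ha
  obtain ⟨c', hc'⟩ := hg
  have h1 : ∀ u, a u • g u =
      ∑ i ∈ range (d + 1), ∑ j ∈ range (e + 1), u ^ (i + j) • (c i • c' j) := by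
    intro u
    rw [hc, hc', sum_smul]
    refine sum_congr rfl fun i _ => ?_
    rw [smul_sum]
    refine sum_congr rfl fun j _ => ?_
    simp only [smul_smul, smul_eq_mul, pow_add]
    congr 1
    ring
  refine PolyLe.congr (g := fun u => ∑ i ∈ range (d + 1), ∑ j ∈ range (e + 1),
    u ^ (i + j) • (c i • c' j)) ?_ h1
  refine PolyLe.sum _ fun i hi => PolyLe.sum _ fun j hj => (PolyLe.monomial _ _).mono ?_
  simp only [mem_range] at hi hj
  omega

theorem PolyLe.mul {a b : F → F} {d e : ℕ} (ha : PolyLe F a d) (hb : PolyLe F b e) :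
    PolyLe F (fun u => a u * b u) (d + e) := ha.smul hb

theorem PolyLe.pow {a : F → F} {d : ℕ} (ha : PolyLe F a d) (k : ℕ) :
    PolyLe F (fun u => a u ^ k) (k * d) := by
  induction k with
  | zero => exact (PolyLe.const (1 : F) _).congr fun u => by simp
  | succ k ih =>
    refine ((ih.mul ha).congr fun u => by rw [pow_succ]).mono (by rw [Nat.succ_mul])

theorem PolyLe.prod {ι : Type*} (s : Finset ι) {a : ι → F → F} {d : ι → ℕ}
    (ha : ∀ i ∈ s, PolyLe F (a i) (d i)) :
    PolyLe F (fun u => ∏ i ∈ s, a i u) (∑ i ∈ s, d i) := by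
  classical
  induction s using Finset.induction_on with
  | empty => exact (PolyLe.const (1 : F) _).congr fun u => by simp
  | insert b s hb ih =>
    rw [sum_insert hb]
    refine ((ha b (mem_insert_self _ _)).mul (ih fun i hi => ha i (mem_insert_of_mem hi))).congr
      fun u => ?_
    rw [prod_insert hb]

theorem PolyLe.id : PolyLe F (fun u : F => u) 1 :=
  (PolyLe.monomial (1 : F) 1).congr fun u => by simp

theorem PolyLe.affine (a b : W) : PolyLe F (fun u : F => a + u • b) 1 :=
  (PolyLe.const a 1).add (((PolyLe.monomial b 1)).congr fun u => by simp)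

theorem PolyLe.comp_affine {g : F → W} {d : ℕ} (hg : PolyLe F g d) (a b : F) :
    PolyLe F (fun u => g (a + u * b)) d := by
  obtain ⟨c, hc⟩ := hg
  refine PolyLe.congr (g := fun u => ∑ i ∈ range (d + 1), (a + u * b) ^ i • c i) ?_
    fun u => hc _
  refine PolyLe.sum _ fun i hi => ?_
  have h1 : PolyLe F (fun u : F => (a + u * b) ^ i) (i * 1) := PolyLe.pow (PolyLe.affine a b) i
  refine ((h1.smul (PolyLe.const (c i) 0))).mono ?_
  simp only [mem_range] at hi
  omega

theorem PolyLe.comp_mul {g : F → W} {d : ℕ} (hg : PolyLe F g d) (b : F) :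
    PolyLe F (fun u => g (u * b)) d :=
  (hg.comp_affine 0 b).congr fun u => by simp

theorem PolyLe.eval (P : Polynomial F) {d : ℕ} (hd : P.natDegree ≤ d) :
    PolyLe F (fun u => P.eval u) d :=
  ⟨fun i => P.coeff i, fun u => by
    simp only [Polynomial.eval_eq_sum_range' (Nat.lt_succ_of_le hd)]
    exact sum_congr rfl fun i _ => by rw [smul_eq_mul, mul_comm]⟩

theorem PolyLe.exists_poly {a : F → F} {d : ℕ} (ha : PolyLe F a d) :
    ∃ P : Polynomial F, P.natDegree ≤ d ∧ ∀ u, a u = P.eval u := by
  obtain ⟨c, hc⟩ := ha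
  refine ⟨∑ i ∈ range (d + 1), Polynomial.C (c i) * Polynomial.X ^ i, ?_, fun u => ?_⟩
  · refine Polynomial.natDegree_sum_le_of_forall_le _ _ fun i hi => ?_
    refine (Polynomial.natDegree_C_mul_X_pow_le _ _).trans ?_
    simp only [mem_range] at hi
    omega
  · rw [hc, Polynomial.eval_finsetSum]
    refine sum_congr rfl fun i _ => ?_
    rw [Polynomial.eval_mul, Polynomial.eval_C, Polynomial.eval_pow, Polynomial.eval_X,
      smul_eq_mul, mul_comm]

/-- Interpolation. -/
theorem PolyLe.interp {g : F → W} {d : ℕ} (hg : PolyLe F g d) (S : Finset F)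
    (hS : d + 1 ≤ S.card) (u : F) [DecidableEq F] :
    g u = ∑ p ∈ S, (Lagrange.basis S _root_.id p).eval u • g p := by
  obtain ⟨c, hc⟩ := hg
  have h1 : ∀ i ∈ range (d + 1), u ^ i =
      ∑ p ∈ S, (Lagrange.basis S _root_.id p).eval u * p ^ i := by
    intro i hi
    have h2 : (Polynomial.X ^ i : Polynomial F).degree < S.card := by
      rw [Polynomial.degree_X_pow]
      simp only [mem_range] at hi
      exact_mod_cast (by omega : i < S.card)
    have h3 := Lagrange.eq_interpolate (f := (Polynomial.X ^ i : Polynomial F)) (v := _root_.id)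
      (s := S) (Set.injOn_id _) h2
    have h4 : (Polynomial.X ^ i : Polynomial F).eval u =
        ∑ p ∈ S, (Polynomial.X ^ i : Polynomial F).eval (_root_.id p) *
          (Lagrange.basis S _root_.id p).eval u := by
      conv_lhs => rw [h3]
      rw [Lagrange.interpolate_apply, Polynomial.eval_finsetSum]
      refine sum_congr rfl fun p _ => ?_
      rw [Polynomial.eval_mul, Polynomial.eval_C]
    rw [Polynomial.eval_pow, Polynomial.eval_X] at h4
    rw [h4]
    refine sum_congr rfl fun p _ => ?_
    rw [Polynomial.eval_pow, Polynomial.eval_X, mul_comm]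
    rfl
  rw [hc u]
  have h5 : ∀ p ∈ S, (Lagrange.basis S _root_.id p).eval u • g p =
      ∑ i ∈ range (d + 1), ((Lagrange.basis S _root_.id p).eval u * p ^ i) • c i := by
    intro p _
    rw [hc p, smul_sum]
    exact sum_congr rfl fun i _ => by rw [smul_smul]
  rw [sum_congr rfl h5, sum_comm]
  refine sum_congr rfl fun i hi => ?_
  rw [h1 i hi, sum_smul]

theorem PolyLe.basis [DecidableEq F] (S : Finset F) {p : F} (hp : p ∈ S) :
    PolyLe F (fun u => (Lagrange.basis S _root_.id p).eval u) (S.card - 1) := by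
  refine PolyLe.eval _ ?_
  rw [Lagrange.natDegree_basis (Set.injOn_id _) hp]

/-- Over a finite field every function is a polynomial. -/
theorem PolyLe.of_card [Fintype F] (g : F → W) {d : ℕ} (hd : Fintype.card F ≤ d + 1) :
    PolyLe F g d := by
  classical
  have h1 : ∀ u, g u = ∑ p : F, (Lagrange.basis univ _root_.id p).eval u • g p := by
    intro u
    rw [Finset.sum_eq_single u]
    · have := Lagrange.eval_basis_self (s := (univ : Finset F)) (v := _root_.id) (i := u)
        (Set.injOn_id _) (mem_univ u)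
      simp only [id_eq] at this
      rw [this, one_smul]
    · intro p _ hp
      have := Lagrange.eval_basis_of_ne (s := (univ : Finset F)) (v := _root_.id) (i := p)
        (j := u) hp (mem_univ u)
      simp only [id_eq] at this
      rw [this, zero_smul]
    · intro h; exact absurd (mem_univ u) h
  refine PolyLe.congr (g := fun u => ∑ p : F, (Lagrange.basis univ _root_.id p).eval u • g p) ?_ h1
  refine PolyLe.sum _ fun p _ => ?_
  refine ((PolyLe.basis univ (mem_univ p)).smul (PolyLe.const (g p) 0)).mono ?_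
  rw [card_univ]
  omega

/-- A polynomial in two variables on the diagonal. -/
theorem PolyLe.diag [Fintype F] {g : F → F → W} {d e : ℕ}
    (h1 : ∀ v, PolyLe F (fun u => g u v) d) (h2 : ∀ u, PolyLe F (fun v => g u v) e) :
    PolyLe F (fun u => g u u) (d + e) := by
  classical
  by_cases hq : Fintype.card F ≤ d + 1
  · exact PolyLe.of_card _ (by omega)
  · obtain ⟨S, -, hS⟩ := exists_subset_card_eq
      (s := (univ : Finset F)) (n := d + 1) (by rw [card_univ]; omega)
    refine PolyLe.congr
      (g := fun u => ∑ p ∈ S, (Lagrange.basis S _root_.id p).eval u • g p u) ?_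
      fun u => (h1 u).interp S hS.ge u
    refine PolyLe.sum _ fun p hp => ?_
    have := (PolyLe.basis S hp).smul (h2 p)
    rwa [hS, Nat.add_sub_cancel] at this

theorem exists_dual_ne {w : W} (hw : w ≠ 0) : ∃ L : W →ₗ[F] F, L w ≠ 0 := by
  by_contra h
  push Not at h
  exact hw ((Module.forall_dual_apply_eq_zero_iff F w).1 h)

/-- A nonzero polynomial has at most `d` zeros. -/
theorem PolyLe.card_zeros [Fintype F] {g : F → W} {d : ℕ} (hg : PolyLe F g d) {u₀ : F}
    (h0 : g u₀ ≠ 0) [DecidablePred fun u => g u = 0] : #{u : F | g u = 0} ≤ d := by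
  classical
  obtain ⟨L, hL⟩ := exists_dual_ne (F := F) h0
  obtain ⟨P, hP, hPe⟩ := (hg.map L).exists_poly
  have hP0 : P ≠ 0 := by
    rintro rfl
    apply hL
    rw [hPe u₀, Polynomial.eval_zero]
  refine le_trans ?_ ((Polynomial.card_roots' P).trans hP)
  refine le_trans (card_le_card ?_) (Multiset.toFinset_card_le P.roots)
  intro u hu
  rw [Multiset.mem_toFinset, Polynomial.mem_roots hP0, Polynomial.IsRoot.def, ← hPe u]
  rw [(mem_filter.1 hu).2, map_zero]

/-- The sum over the field of a polynomial of degree at most `q - 2` is zero. -/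
theorem PolyLe.sum_eq_zero [Fintype F] {g : F → W} {d : ℕ} (hg : PolyLe F g d)
    (hd : d + 2 ≤ Fintype.card F) : ∑ u, g u = 0 := by
  obtain ⟨c, hc⟩ := hg
  simp_rw [hc]
  rw [sum_comm]
  refine Finset.sum_eq_zero fun i hi => ?_
  rw [← sum_smul, FiniteField.sum_pow_lt_card_sub_one F i (by simp only [mem_range] at hi; omega),
    zero_smul]

theorem PolyLe.moment_eq_zero [Fintype F] {g : F → W} {d i : ℕ} (hg : PolyLe F g d)
    (hd : i + d + 2 ≤ Fintype.card F) : ∑ u, u ^ i • g u = 0 := by
  have h1 : PolyLe F (fun u : F => u ^ i • g u) (i + d) :=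
    ((PolyLe.monomial (1 : F) i).congr fun u => by simp).smul hg
  exact h1.sum_eq_zero hd

/-- If the first `D + 1` moments vanish, the degree is at most `q - 2 - D`. -/
theorem PolyLe.of_moments [Fintype F] {g : F → W} {D : ℕ} (hD : D + 2 ≤ Fintype.card F)
    (h : ∀ i ≤ D, ∑ u, u ^ i • g u = 0) : PolyLe F g (Fintype.card F - 2 - D) := by
  classical
  set q := Fintype.card F with hq
  have h1 : ∀ v : F, g v = - ∑ u : F, (v - u) ^ (q - 1) • g u := by
    intro v
    have h2 : ∀ u : F, (v - u) ^ (q - 1) • g u = g u - (if u = v then g u else 0) := by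
      intro u
      by_cases huv : u = v
      · subst huv
        rw [sub_self, zero_pow (by omega), zero_smul, if_pos rfl, sub_self]
      · rw [if_neg huv, sub_zero, hq, FiniteField.pow_card_sub_one_eq_one _
          (sub_ne_zero.2 (Ne.symm huv)), one_smul]
    simp_rw [h2]
    rw [sum_sub_distrib, Finset.sum_ite_eq' univ v, if_pos (mem_univ v)]
    have h3 := h 0 (Nat.zero_le _)
    simp only [pow_zero, one_smul] at h3
    rw [h3, zero_sub, neg_neg]
  have h4 : ∀ v : F, g v = ∑ j ∈ range (q - 2 - D + 1),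
      v ^ j • (- ((q - 1).choose j : F) • ∑ u : F, (-u) ^ (q - 1 - j) • g u) := by
    intro v
    have h5 : ∀ u : F, (v - u) ^ (q - 1) • g u = ∑ j ∈ range (q - 1 + 1),
        (v ^ j * (-u) ^ (q - 1 - j) * ((q - 1).choose j : F)) • g u := by
      intro u
      rw [sub_eq_add_neg, add_pow, sum_smul]
    rw [h1 v]
    simp_rw [h5]
    rw [sum_comm, ← sum_neg_distrib]
    have h6 : range (q - 2 - D + 1) ⊆ range (q - 1 + 1) := by
      intro i hi; simp only [mem_range] at *; omega
    rw [← sum_subset h6]
    · refine sum_congr rfl fun j _ => ?_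
      rw [smul_smul, smul_sum, ← sum_neg_distrib]
      refine sum_congr rfl fun u _ => ?_
      rw [smul_smul, ← neg_smul]
      congr 1
      ring
    · intro j hj hj'
      simp only [mem_range] at hj hj'
      have h7 : ∑ u : F, (-u) ^ (q - 1 - j) • g u = 0 := by
        have h8 : ∀ u : F, (-u) ^ (q - 1 - j) • g u =
            ((-1 : F) ^ (q - 1 - j)) • (u ^ (q - 1 - j) • g u) := by
          intro u
          rw [smul_smul, ← mul_pow, neg_one_mul]
        simp_rw [h8]
        rw [← smul_sum, h _ (by omega), smul_zero]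
      have h9 : ∀ u : F, (v ^ j * (-u) ^ (q - 1 - j) * ((q - 1).choose j : F)) • g u =
          (v ^ j * ((q - 1).choose j : F)) • ((-u) ^ (q - 1 - j) • g u) := by
        intro u
        rw [smul_smul]
        congr 1
        ring
      simp_rw [h9]
      rw [← smul_sum, h7, smul_zero, neg_zero]
  exact ⟨_, h4⟩

end One

section Along

variable {F : Type*} [Field F] {Y Y' W W' : Type*} [AddCommGroup Y] [Module F Y]
  [AddCommGroup Y'] [Module F Y'] [AddCommGroup W] [Module F W] [AddCommGroup W'] [Module F W']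

/-- `f` is a polynomial of degree at most `d` on every line of direction `r`. -/
def DegAlong (F : Type*) [Field F] {Y W : Type*} [AddCommGroup Y] [Module F Y] [AddCommGroup W]
    [Module F W] (f : Y → W) (r : Y) (d : ℕ) : Prop :=
  ∀ y, ∃ c : ℕ → W, ∀ u : F, f (y + u • r) = ∑ i ∈ range (d + 1), u ^ i • c i

theorem degAlong_iff {f : Y → W} {r : Y} {d : ℕ} :
    DegAlong F f r d ↔ ∀ y, PolyLe F (fun u => f (y + u • r)) d := Iff.rfl

namespace DegAlong

theorem congr {f g : Y → W} {r : Y} {d : ℕ} (h : DegAlong F f r d) (hg : ∀ y, g y = f y) :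
    DegAlong F g r d := fun y => PolyLe.congr (h y) fun _ => hg _

theorem mono {f : Y → W} {r : Y} {d e : ℕ} (h : DegAlong F f r d) (hde : d ≤ e) :
    DegAlong F f r e := fun y => PolyLe.mono (h y) hde

theorem const (w : W) (r : Y) (d : ℕ) : DegAlong F (fun _ : Y => w) r d :=
  fun _ => PolyLe.const w d

theorem zero (r : Y) (d : ℕ) : DegAlong F (fun _ : Y => (0 : W)) r d := const 0 r d

theorem add {f g : Y → W} {r : Y} {d : ℕ} (hf : DegAlong F f r d) (hg : DegAlong F g r d) :
    DegAlong F (fun y => f y + g y) r d := fun y => PolyLe.add (hf y) (hg y)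

theorem sub {f g : Y → W} {r : Y} {d : ℕ} (hf : DegAlong F f r d) (hg : DegAlong F g r d) :
    DegAlong F (fun y => f y - g y) r d := fun y => PolyLe.sub (hf y) (hg y)

theorem neg {f : Y → W} {r : Y} {d : ℕ} (hf : DegAlong F f r d) :
    DegAlong F (fun y => - f y) r d := fun y => PolyLe.neg (hf y)

theorem sum {ι : Type*} (s : Finset ι) {f : ι → Y → W} {r : Y} {d : ℕ}
    (hf : ∀ i ∈ s, DegAlong F (f i) r d) : DegAlong F (fun y => ∑ i ∈ s, f i y) r d :=
  fun y => PolyLe.sum s fun i hi => hf i hi y

theorem map {f : Y → W} {r : Y} {d : ℕ} (hf : DegAlong F f r d) (L : W →ₗ[F] W') :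
    DegAlong F (fun y => L (f y)) r d := fun y => PolyLe.map (hf y) L

theorem const_smul {f : Y → W} {r : Y} {d : ℕ} (hf : DegAlong F f r d) (a : F) :
    DegAlong F (fun y => a • f y) r d := fun y => PolyLe.const_smul (hf y) a

theorem const_mul {f : Y → F} {r : Y} {d : ℕ} (hf : DegAlong F f r d) (a : F) :
    DegAlong F (fun y => a * f y) r d := hf.const_smul a

theorem pi_iff {ι : Type*} {V : ι → Type*} [∀ i, AddCommGroup (V i)] [∀ i, Module F (V i)]
    {f : Y → ∀ i, V i} {r : Y} {d : ℕ} :
    DegAlong F f r d ↔ ∀ i, DegAlong F (fun y => f y i) r d :=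
  ⟨fun h i y => (PolyLe.pi_iff.1 (h y)) i, fun h y => PolyLe.pi_iff.2 fun i => h i y⟩

theorem prodMk {f : Y → W} {g : Y → W'} {r : Y} {d : ℕ} (hf : DegAlong F f r d)
    (hg : DegAlong F g r d) : DegAlong F (fun y => (f y, g y)) r d :=
  fun y => PolyLe.prodMk (hf y) (hg y)

theorem smul {a : Y → F} {f : Y → W} {r : Y} {d e : ℕ} (ha : DegAlong F a r d)
    (hf : DegAlong F f r e) : DegAlong F (fun y => a y • f y) r (d + e) :=
  fun y => PolyLe.smul (ha y) (hf y)

theorem mul {a b : Y → F} {r : Y} {d e : ℕ} (ha : DegAlong F a r d) (hb : DegAlong F b r e) :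
    DegAlong F (fun y => a y * b y) r (d + e) := fun y => PolyLe.mul (ha y) (hb y)

theorem pow {a : Y → F} {r : Y} {d : ℕ} (ha : DegAlong F a r d) (k : ℕ) :
    DegAlong F (fun y => a y ^ k) r (k * d) := fun y => PolyLe.pow (ha y) k

theorem prod {ι : Type*} (s : Finset ι) {a : ι → Y → F} {r : Y} {d : ι → ℕ}
    (ha : ∀ i ∈ s, DegAlong F (a i) r (d i)) :
    DegAlong F (fun y => ∏ i ∈ s, a i y) r (∑ i ∈ s, d i) :=
  fun y => PolyLe.prod s fun i hi => ha i hi y

/-- Linear functions have degree at most one. -/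
theorem linear (L : Y →ₗ[F] W) (r : Y) : DegAlong F (fun y => L y) r 1 := fun y =>
  (PolyLe.affine (L y) (L r)).congr fun u => by simp only [map_add, map_smul]

theorem linear_zero (L : Y →ₗ[F] W) {r : Y} (hr : L r = 0) (d : ℕ) :
    DegAlong F (fun y => L y) r d := fun y =>
  (PolyLe.const (L y) d).congr fun u => by simp only [map_add, map_smul, hr, smul_zero, add_zero]

/-- Functions that are invariant in the direction `r` have degree zero. -/
theorem of_invariant {f : Y → W} {r : Y} (h : ∀ y, ∀ u : F, f (y + u • r) = f y) (d : ℕ) :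
    DegAlong F f r d := fun y => (PolyLe.const (f y) d).congr fun u => h y u

theorem dir_zero (f : Y → W) (d : ℕ) : DegAlong F f 0 d :=
  of_invariant (fun y u => by rw [smul_zero, add_zero]) d

theorem smul_dir {f : Y → W} {r : Y} {d : ℕ} (hf : DegAlong F f r d) (b : F) :
    DegAlong F f (b • r) d := fun y => by
  refine (PolyLe.comp_mul (hf y) b).congr fun u => ?_
  rw [smul_smul]

/-- The degree along a sum of two directions. -/
theorem add_dir [Fintype F] {f : Y → W} {r r' : Y} {d d' : ℕ} (h : DegAlong F f r d)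
    (h' : DegAlong F f r' d') : DegAlong F f (r + r') (d + d') := fun y => by
  have := PolyLe.diag (F := F) (g := fun u v => f (y + u • r + v • r')) (d := d) (e := d')
    (fun v => by
      refine PolyLe.congr (h (y + v • r')) fun u => ?_
      congr 1
      abel)
    (fun u => h' (y + u • r))
  refine PolyLe.congr this fun u => ?_
  rw [smul_add, add_assoc]

/-- The degree along a sum of directions. -/
theorem sum_dir [Fintype F] {ι : Type*} (s : Finset ι) {f : Y → W} {r : ι → Y} {d : ι → ℕ}
    (h : ∀ i ∈ s, DegAlong F f (r i) (d i)) : DegAlong F f (∑ i ∈ s, r i) (∑ i ∈ s, d i) := by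
  classical
  induction s using Finset.induction_on with
  | empty => rw [sum_empty]; exact dir_zero f _
  | insert a s ha ih =>
    rw [sum_insert ha, sum_insert ha]
    exact (h a (mem_insert_self _ _)).add_dir (ih fun i hi => h i (mem_insert_of_mem hi))

/-- Composition with a linear map. -/
theorem comp_linear {f : Y' → W} {r : Y} {d : ℕ} (L : Y →ₗ[F] Y') (h : DegAlong F f (L r) d) :
    DegAlong F (fun y => f (L y)) r d := fun y => by
  refine PolyLe.congr (h (L y)) fun u => ?_
  simp only [map_add, map_smul]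

/-- Composition with a translation. -/
theorem comp_add {f : Y → W} {r : Y} {d : ℕ} (h : DegAlong F f r d) (b : Y) :
    DegAlong F (fun y => f (y + b)) r d := fun y => by
  refine PolyLe.congr (h (y + b)) fun u => ?_
  show f (y + u • r + b) = f (y + b + u • r)
  congr 1
  abel

/-- Number of zeros on a line. -/
theorem card_zeros [Fintype F] {f : Y → W} {r : Y} {d : ℕ} (h : DegAlong F f r d) {y : Y}
    (hy : f y ≠ 0) [DecidablePred fun u : F => f (y + u • r) = 0] :
    #{u : F | f (y + u • r) = 0} ≤ d :=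
  PolyLe.card_zeros (F := F) (g := fun u => f (y + u • r)) (h y) (u₀ := 0)
    (by rw [zero_smul, add_zero]; exact hy)

theorem sum_eq_zero [Fintype F] {f : Y → W} {r : Y} {d : ℕ} (h : DegAlong F f r d)
    (hd : d + 2 ≤ Fintype.card F) (y : Y) : ∑ u : F, f (y + u • r) = 0 :=
  PolyLe.sum_eq_zero (F := F) (g := fun u => f (y + u • r)) (h y) hd

/-- If the first moments on the lines vanish, the degree is small. -/
theorem of_moments [Fintype F] {f : Y → W} {r : Y} {D : ℕ} (hD : D + 2 ≤ Fintype.card F)
    (h : ∀ y, ∀ i ≤ D, ∑ u : F, u ^ i • f (y + u • r) = 0) :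
    DegAlong F f r (Fintype.card F - 2 - D) := fun y => PolyLe.of_moments hD (h y)

end DegAlong

end Along

end Vale.Agent.P318.S
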