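import Vale.Agent.P318.S.Crv

/-!
# Expectations: tools
-/

namespace Vale.Agent.P318.S

open Finset
open scoped BigOperators

theorem ind_nonneg (a : ZMod 2) : 0 ≤ ind a := by
  rw [ind]; split_ifs <;> norm_num

theorem ind_le_one (a : ZMod 2) : ind a ≤ 1 := by
  rw [ind]; split_ifs <;> norm_num

@[simp] theorem ind_zero : ind 0 = 0 := by simp [ind]

@[simp] theorem ind_one : ind 1 = 1 := by simp [ind]

theorem ind_mul_self (a : ZMod 2) : ind a * ind a = ind a := by
  rw [ind]; split_ifs <;> norm_num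

/-- A surjective affine map preserves the uniform distribution. -/
theorem expect_affine {G H : Type*} [AddCommGroup G] [Fintype G] [AddCommGroup H] [Fintype H]
    (Φ : G →+ H) (hΦ : Function.Surjective Φ) (b : H) (g : H → ℝ) :
    𝔼 x, g (Φ x + b) = 𝔼 y, g y := by
  have h1 : ∀ y0 : H, 𝔼 x, g (Φ x + b) = 𝔼 x, g (Φ x + y0 + b) := by
    intro y0
    obtain ⟨x0, rfl⟩ := hΦ y0
    refine Fintype.expect_equiv (Equiv.subRight x0) _ _ fun x => ?_
    simp
  have h2 : 𝔼 x, g (Φ x + b) = 𝔼 y0 : H, 𝔼 x, g (Φ x + y0 + b) := by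
    rw [← Finset.expect_congr rfl fun y0 _ => h1 y0, Fintype.expect_const]
  rw [h2, Finset.expect_comm]
  have h3 : ∀ x : G, 𝔼 y0 : H, g (Φ x + y0 + b) = 𝔼 y, g y := by
    intro x
    refine Fintype.expect_equiv (Equiv.addRight (Φ x + b)) _ _ fun y => ?_
    show g (Φ x + y + b) = g (y + (Φ x + b))
    congr 1; abel
  rw [Finset.expect_congr rfl fun x _ => h3 x, Fintype.expect_const]

theorem expect_shift {Y : Type*} [AddCommGroup Y] [Fintype Y] (z : Y) (g : Y → ℝ) :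
    𝔼 y, g (y + z) = 𝔼 y, g y :=
  Fintype.expect_equiv (Equiv.addRight z) _ _ fun _ => rfl

theorem expect_prod' {A B : Type*} [Fintype A] [Fintype B] (g : A × B → ℝ) :
    𝔼 x, g x = 𝔼 a, 𝔼 b, g (a, b) := by
  have := Finset.expect_product (univ : Finset A) (univ : Finset B) g
  rwa [univ_product_univ] at this

theorem expect_cons {M : Type*} [Fintype M] {D : ℕ} (g : (Fin (D + 1) → M) → ℝ) :
    𝔼 C, g C = 𝔼 c : M, 𝔼 C : Fin D → M, g (Fin.cons c C : Fin (D + 1) → M) := by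
  rw [← expect_prod' (fun x : M × (Fin D → M) => g (Fin.cons x.1 x.2 : Fin (D + 1) → M))]
  exact (Fintype.expect_equiv (Fin.consEquiv fun _ => M) _ _ fun _ => rfl).symm

theorem expect_mono {A : Type*} [Fintype A] {f g : A → ℝ} (h : ∀ a, f a ≤ g a) :
    𝔼 a, f a ≤ 𝔼 a, g a := Finset.expect_le_expect fun a _ => h a

theorem expect_nn {A : Type*} [Fintype A] {f : A → ℝ} (h : ∀ a, 0 ≤ f a) :
    0 ≤ 𝔼 a, f a := Finset.expect_nonneg fun a _ => h a

theorem expect_le_of {A : Type*} [Fintype A] [Nonempty A] {f : A → ℝ} {c : ℝ} (h : ∀ a, f a ≤ c) :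
    𝔼 a, f a ≤ c := Finset.expect_le univ_nonempty fun a _ => h a

theorem sq_expect_le {A : Type*} [Fintype A] [Nonempty A] (f : A → ℝ) :
    (𝔼 a, f a) ^ 2 ≤ 𝔼 a, f a ^ 2 := by
  have h := Finset.expect_mul_sq_le_sq_mul_sq (univ : Finset A) f (fun _ => (1 : ℝ))
  simpa using h

end Vale.Agent.P318.S
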