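import Vale.Agent.P318.S.Defs

/-!
# Fourier analysis on a finite elementary abelian 2-group
-/

namespace Vale.Agent.P318.S

open Finset
open scoped BigOperators

theorem zmod2_cases (a : ZMod 2) : a = 0 ∨ a = 1 := by
  revert a; decide

theorem sgn_add (a b : ZMod 2) : sgn (a + b) = sgn a * sgn b := by
  rcases zmod2_cases a with rfl | rfl <;> rcases zmod2_cases b with rfl | rfl <;>
    simp [sgn, show (1 : ZMod 2) + 1 = 0 from rfl]

@[simp] theorem sgn_zero : sgn 0 = 1 := by simp [sgn]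

@[simp] theorem sgn_one : sgn 1 = -1 := by simp [sgn]

theorem sgn_eq (a : ZMod 2) : sgn a = 1 - 2 * ind a := by
  rcases zmod2_cases a with rfl | rfl <;> simp [sgn, ind]; norm_num

theorem sgn_mul_self (a : ZMod 2) : sgn a * sgn a = 1 := by
  rcases zmod2_cases a with rfl | rfl <;> simp

theorem abs_sgn (a : ZMod 2) : |sgn a| = 1 := by
  rcases zmod2_cases a with rfl | rfl <;> simp

theorem sgn_le_one (a : ZMod 2) : sgn a ≤ 1 := by
  rcases zmod2_cases a with rfl | rfl <;> simp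

section

variable {Y : Type*} [AddCommGroup Y] [Fintype Y]

theorem sum_sgn_char {f : Y →+ ZMod 2} (hf : f ≠ 0) : ∑ y, sgn (f y) = 0 := by
  obtain ⟨y0, hy0⟩ : ∃ y0, f y0 ≠ 0 := by
    by_contra h
    push Not at h
    exact hf (AddMonoidHom.ext fun y => by simpa using h y)
  have h1 : f y0 = 1 := (zmod2_cases _).resolve_left hy0
  have h : ∑ y, sgn (f (y + y0)) = ∑ y, sgn (f y) :=
    Fintype.sum_equiv (Equiv.addRight y0) _ _ fun y => rfl
  simp only [map_add, sgn_add, h1, sgn_one, ← sum_mul] at h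
  linarith

instance : Finite (Y →+ ZMod 2) := Finite.of_injective (fun f => (f : Y → ZMod 2))
  DFunLike.coe_injective

theorem exists_hom (h2 : ∀ y : Y, y + y = 0) {y : Y} (hy : y ≠ 0) : ∃ f : Y →+ ZMod 2, f y = 1 := by
  let _ : Module (ZMod 2) Y := AddCommGroup.zmodModule (fun x => by
    rw [two_nsmul]; exact h2 x)
  obtain ⟨f, hf⟩ : ∃ f : Module.Dual (ZMod 2) Y, f y ≠ 0 := by
    by_contra h
    push Not at h
    exact hy ((Module.forall_dual_apply_eq_zero_iff (ZMod 2) y).1 h)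
  exact ⟨f.toAddMonoidHom, (zmod2_cases _).resolve_left hf⟩

theorem sum_sgn_dual [Fintype (Y →+ ZMod 2)] (h2 : ∀ y : Y, y + y = 0) {y : Y} (hy : y ≠ 0) :
    ∑ f : Y →+ ZMod 2, sgn (f y) = 0 := by
  obtain ⟨f0, hf0⟩ := exists_hom h2 hy
  have h : ∑ f : Y →+ ZMod 2, sgn ((f + f0) y) = ∑ f : Y →+ ZMod 2, sgn (f y) :=
    Fintype.sum_equiv (Equiv.addRight f0) _ _ fun y => rfl
  simp only [AddMonoidHom.add_apply, sgn_add, hf0, sgn_one, ← sum_mul] at h
  linarith

theorem card_dual [Fintype (Y →+ ZMod 2)] (h2 : ∀ y : Y, y + y = 0) :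
    (Fintype.card (Y →+ ZMod 2) : ℝ) = Fintype.card Y := by
  classical
  have h := sum_comm (s := (univ : Finset (Y →+ ZMod 2))) (t := (univ : Finset Y))
    (f := fun f y => sgn (f y))
  have h3 : ∑ f : Y →+ ZMod 2, ∑ y, sgn (f y) = Fintype.card Y := by
    rw [Finset.sum_eq_single (0 : Y →+ ZMod 2)]
    · simp
    · intro f _ hf
      exact sum_sgn_char hf
    · simp
  have h4 : ∑ y, ∑ f : Y →+ ZMod 2, sgn (f y) = Fintype.card (Y →+ ZMod 2) := by
    rw [Finset.sum_eq_single (0 : Y)]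
    · simp
    · intro y _ hy
      exact sum_sgn_dual h2 hy
    · simp
  rw [← h4, ← h, h3]

/-- The Fourier coefficients. -/
noncomputable def fc (g : Y → ℝ) (f : Y →+ ZMod 2) : ℝ := 𝔼 y, g y * sgn (f y)

theorem fc_zero (g : Y → ℝ) : fc g 0 = 𝔼 y, g y := by simp [fc]

theorem corr_eq [Fintype (Y →+ ZMod 2)] (h2 : ∀ y : Y, y + y = 0) (g : Y → ℝ) (z : Y) :
    𝔼 y, g y * g (y + z) = ∑ f : Y →+ ZMod 2, fc g f ^ 2 * sgn (f z) := by
  classical
  have hY : (Fintype.card Y : ℝ) ≠ 0 := by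
    have : Nonempty Y := ⟨0⟩
    exact_mod_cast Fintype.card_ne_zero
  have h1 : ∀ f : Y →+ ZMod 2, fc g f ^ 2 * sgn (f z) =
      (1 / (Fintype.card Y : ℝ)) ^ 2 * ∑ y, ∑ y', g y * g y' * sgn (f (y + y' + z)) := by
    intro f
    have e : fc g f = 1 / (Fintype.card Y : ℝ) * ∑ y, g y * sgn (f y) := by
      rw [fc, Fintype.expect_eq_sum_div_card]; ring
    rw [e, mul_pow, sq (∑ y, g y * sgn (f y)), sum_mul_sum, mul_assoc, sum_mul]
    congr 1
    refine sum_congr rfl fun y _ => ?_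
    rw [sum_mul]
    refine sum_congr rfl fun y' _ => ?_
    rw [map_add, map_add, sgn_add, sgn_add]; ring
  rw [Finset.sum_congr rfl fun f _ => h1 f, ← mul_sum]
  have h5 : ∑ f : Y →+ ZMod 2, ∑ y, ∑ y', g y * g y' * sgn (f (y + y' + z)) =
      ∑ y, g y * g (y + z) * Fintype.card Y := by
    rw [sum_comm]
    refine sum_congr rfl fun y _ => ?_
    rw [sum_comm, Finset.sum_eq_single (y + z)]
    · have : y + (y + z) + z = 0 := by
        have := h2 y; have := h2 z
        calc y + (y + z) + z = (y + y) + (z + z) := by abel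
          _ = 0 := by rw [h2, h2, add_zero]
      simp only [this, map_zero, sgn_zero, mul_one, sum_const, card_univ, nsmul_eq_mul]
      rw [card_dual h2]; ring
    · intro y' _ hy'
      rw [← mul_sum, sum_sgn_dual h2, mul_zero]
      intro h0
      apply hy'
      calc y' = (y + y' + z) + (y + z) := by
            have : (y + y' + z) + (y + z) = y' + ((y + y) + (z + z)) := by abel
            rw [this, h2, h2]; simp
        _ = y + z := by rw [h0, zero_add]
    · simp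
  rw [h5, ← sum_mul, Fintype.expect_eq_sum_div_card]
  field_simp

theorem sum_fc_sq [Fintype (Y →+ ZMod 2)] (h2 : ∀ y : Y, y + y = 0) (g : Y → ℝ) :
    ∑ f : Y →+ ZMod 2, fc g f ^ 2 = 𝔼 y, g y ^ 2 := by
  have := corr_eq h2 g 0
  simp only [add_zero, map_zero, sgn_zero, mul_one] at this
  rw [← this]
  exact expect_congr rfl fun y _ => (sq _).symm

/-- Mixing for an arbitrary family of differences. -/
theorem mix_abs (h2 : ∀ y : Y, y + y = 0) {Ω : Type*} [Fintype Ω] (z : Ω → Y)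
    {lam : ℝ} (hb : CharBd z lam) [Nonempty Ω] (g : Y → ℝ) :
    |(𝔼 ω, 𝔼 y, g y * g (y + z ω)) - (𝔼 y, g y) ^ 2| ≤
      lam * ((𝔼 y, g y ^ 2) - (𝔼 y, g y) ^ 2) := by
  classical
  let _ : Fintype (Y →+ ZMod 2) := Fintype.ofFinite _
  have e1 : 𝔼 ω, 𝔼 y, g y * g (y + z ω) =
      ∑ f : Y →+ ZMod 2, fc g f ^ 2 * 𝔼 ω, sgn (f (z ω)) := by
    rw [Finset.expect_congr rfl fun ω _ => corr_eq h2 g (z ω), Finset.expect_sum_comm]
    exact sum_congr rfl fun f _ => by rw [Finset.mul_expect]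
  have e2 : (𝔼 y, g y ^ 2) - (𝔼 y, g y) ^ 2 =
      ∑ f ∈ (univ : Finset (Y →+ ZMod 2)).erase 0, fc g f ^ 2 := by
    rw [← sum_fc_sq h2, ← fc_zero, ← Finset.add_sum_erase univ _ (mem_univ (0 : Y →+ ZMod 2))]
    ring
  have e3 : (𝔼 ω, 𝔼 y, g y * g (y + z ω)) - (𝔼 y, g y) ^ 2 =
      ∑ f ∈ (univ : Finset (Y →+ ZMod 2)).erase 0, fc g f ^ 2 * 𝔼 ω, sgn (f (z ω)) := by
    rw [e1, ← fc_zero, ← Finset.add_sum_erase univ _ (mem_univ (0 : Y →+ ZMod 2))]
    simp
  rw [e3, e2, mul_sum]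
  refine (Finset.abs_sum_le_sum_abs _ _).trans (sum_le_sum fun f hf => ?_)
  rw [abs_mul, abs_of_nonneg (sq_nonneg _), mul_comm]
  exact mul_le_mul_of_nonneg_right (hb f (ne_of_mem_erase hf)) (sq_nonneg _)

theorem mix_le (h2 : ∀ y : Y, y + y = 0) {Ω : Type*} [Fintype Ω] (z : Ω → Y)
    {lam : ℝ} (h0 : 0 ≤ lam) (hb : CharBd z lam) [Nonempty Ω] (g : Y → ℝ) :
    𝔼 ω, 𝔼 y, g y * g (y + z ω) ≤ (𝔼 y, g y) ^ 2 + lam * 𝔼 y, g y ^ 2 := by
  have h := (abs_le.1 (mix_abs h2 z hb g)).2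
  nlinarith [mul_nonneg h0 (sq_nonneg (𝔼 y, g y))]

/-- `CharBd` is invariant under scaling. -/
theorem CharBd.smul {F : Type*} [Field F] [Module F Y] {ι : Type*} [Fintype ι] {r : ι → Y}
    {lam : ℝ} (hb : CharBd r lam) {u : F} (hu : u ≠ 0) : CharBd (fun i => u • r i) lam := by
  intro f hf
  have := hb (f.comp (DistribSMul.toAddMonoidHom Y u)) (by
    intro h
    apply hf
    ext y
    have h1 := DFunLike.congr_fun h (u⁻¹ • y)
    simpa [smul_smul, mul_inv_cancel₀ hu] using h1)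
  simpa using this

theorem CharBd.nonneg [Nontrivial Y] (h2 : ∀ y : Y, y + y = 0) {ι : Type*} [Fintype ι]
    {r : ι → Y} {lam : ℝ} (hb : CharBd r lam) : 0 ≤ lam := by
  obtain ⟨y, hy⟩ := exists_ne (0 : Y)
  obtain ⟨f, hf⟩ := exists_hom h2 hy
  exact (abs_nonneg _).trans (hb f fun h => by simp [h] at hf)

omit [Fintype Y] in
theorem two_torsion {F : Type*} [Field F] [CharP F 2] [Module F Y] (y : Y) : y + y = 0 := by
  have : (2 : F) = 0 := CharTwo.two_eq_zero
  calc y + y = (2 : F) • y := by rw [two_smul]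
    _ = 0 := by rw [this, zero_smul]

/-- `CharBd` implies `Mix` (for nonnegative `lam`). -/
theorem CharBd.mix {F : Type*} [Field F] [CharP F 2] [Module F Y] {ι : Type*} [Fintype ι]
    [Nonempty ι] {r : ι → Y} {lam : ℝ} (h0 : 0 ≤ lam) (hb : CharBd r lam) : Mix F r 1 lam := by
  intro g _ u hu
  have := mix_le (two_torsion (F := F)) (fun i => u • r i) h0 (hb.smul hu) g
  simpa using this

end

end Vale.Agent.P318.S
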