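import Vale.Agent.P318.S.Exp

/-!
# The grid argument
-/

namespace Vale.Agent.P318.S

open Finset
open scoped BigOperators

section parity

variable {F : Type*} [Field F] [Fintype F] [DecidableEq F]

theorem exists_of_sum_ne {A : Type*} {s : Finset A} {f : A → ZMod 2} (h : ∑ a ∈ s, f a ≠ 0) :
    ∃ a ∈ s, f a = 1 := by
  obtain ⟨a, ha, hne⟩ := Finset.exists_ne_zero_of_sum_ne_zero h
  exact ⟨a, ha, (zmod2_cases _).resolve_left hne⟩

theorem one_le_sum_ind {A : Type*} {s : Finset A} {f : A → ZMod 2} (h : ∑ a ∈ s, f a ≠ 0) :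
    1 ≤ ∑ a ∈ s, ind (f a) := by
  obtain ⟨a, ha, h1⟩ := exists_of_sum_ne h
  have := Finset.single_le_sum (f := fun a => ind (f a)) (fun a _ => ind_nonneg _) ha
  simpa [h1] using this

theorem parity_one {R C : F → ZMod 2} (h : ∑ u, R u = ∑ u, C u) :
    ind (R 0) ≤ ∑ u ∈ univ.erase (0 : F), ind (R 0) * ind (R u) + ∑ u, ind (R 0) * ind (C u) := by
  rcases zmod2_cases (R 0) with h0 | h0
  · simp [h0]
  · simp only [h0, ind_one, one_mul]
    by_contra hlt
    push Not at hlt
    have h1 : ∑ u ∈ univ.erase (0 : F), R u = 0 := by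
      by_contra hne
      have := one_le_sum_ind hne
      have h2 : 0 ≤ ∑ u, ind (C u) := sum_nonneg fun u _ => ind_nonneg _
      linarith
    have h2 : ∑ u, C u = 0 := by
      by_contra hne
      have := one_le_sum_ind hne
      have h2 : 0 ≤ ∑ u ∈ univ.erase (0 : F), ind (R u) := sum_nonneg fun u _ => ind_nonneg _
      linarith
    rw [← add_sum_erase univ _ (mem_univ (0 : F)), h1, h2, h0] at h
    exact absurd h (by decide)

theorem parity_two {R C : F → ZMod 2} (h : ∑ u, R u = ∑ u, C u) :
    ind (R 0) * (1 - ind (C 0)) + (1 - ind (R 0)) * ind (C 0) ≤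
      ∑ u ∈ univ.erase (0 : F), ind (R u) + ∑ u ∈ univ.erase (0 : F), ind (C u) := by
  have n1 : 0 ≤ ∑ u ∈ univ.erase (0 : F), ind (R u) := sum_nonneg fun u _ => ind_nonneg _
  have n2 : 0 ≤ ∑ u ∈ univ.erase (0 : F), ind (C u) := sum_nonneg fun u _ => ind_nonneg _
  rw [← add_sum_erase univ R (mem_univ (0 : F)), ← add_sum_erase univ C (mem_univ (0 : F))] at h
  rcases zmod2_cases (R 0) with h0 | h0 <;> rcases zmod2_cases (C 0) with h0' | h0'
  · simp only [h0, h0', ind_zero]; linarith
  · simp only [h0, h0', ind_zero, ind_one]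
    by_cases hc : ∑ u ∈ univ.erase (0 : F), C u = 0
    · have : ∑ u ∈ univ.erase (0 : F), R u ≠ 0 := by
        intro hr
        rw [h0, h0', hr, hc] at h
        exact absurd h (by decide)
      have := one_le_sum_ind this
      linarith
    · have := one_le_sum_ind hc
      linarith
  · simp only [h0, h0', ind_zero, ind_one]
    by_cases hc : ∑ u ∈ univ.erase (0 : F), C u = 0
    · have : ∑ u ∈ univ.erase (0 : F), R u ≠ 0 := by
        intro hr
        rw [h0, h0', hr, hc] at h
        exact absurd h (by decide)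
      have := one_le_sum_ind this
      linarith
    · have := one_le_sum_ind hc
      linarith
  · simp only [h0, h0', ind_one]; linarith

end parity

section grid

variable {F E : Type*} [Field F] [Fintype F] [AddCommGroup E] [Module F E] {D : ℕ}

/-- Rows of a grid of coefficients. -/
def rowC (c : Fin (D + 1) → Fin (D + 1) → E) (u' : F) (i : Fin (D + 1)) : E := crv (c i) u'

/-- Columns of a grid of coefficients. -/
def colC (c : Fin (D + 1) → Fin (D + 1) → E) (u : F) (j : Fin (D + 1)) : E :=
  crv (fun i => c i j) u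

omit [Fintype F] in
theorem grid_swap (c : Fin (D + 1) → Fin (D + 1) → E) (u u' : F) :
    crv (rowC c u') u = crv (colC c u) u' := by
  simp only [crv, rowC, colC, smul_sum, smul_smul]
  rw [sum_comm]
  refine sum_congr rfl fun j _ => sum_congr rfl fun i _ => ?_
  rw [mul_comm]

variable {Y : Type*} [AddCommGroup Y] [Module F Y]

theorem grid_sum (τ : Y → E → ZMod 2) (r r' y : Y) (c : Fin (D + 1) → Fin (D + 1) → E) :
    ∑ u' : F, tsum F τ r (y + u' • r') (rowC c u') =
      ∑ u : F, tsum F τ r' (y + u • r) (colC c u) := by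
  simp only [tsum]
  rw [sum_comm]
  refine sum_congr rfl fun u _ => sum_congr rfl fun u' _ => ?_
  rw [grid_swap, add_right_comm]

omit [Fintype F] in
theorem rowC_zero (c : Fin (D + 1) → Fin (D + 1) → E) : rowC c (0 : F) = fun i => c i 0 := by
  funext i
  exact crv_zero _

omit [Fintype F] in
theorem colC_zero (c : Fin (D + 1) → Fin (D + 1) → E) : colC c (0 : F) = c 0 := by
  funext j
  exact crv_zero _

/-- The shift reparametrisation. -/
theorem tsum_shift (τ : Y → E → ZMod 2) (r y : Y) (C : Fin (D + 1) → E) (u0 : F) :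
    tsum F τ r (y + u0 • r) (shc u0 C) = tsum F τ r y C := by
  rw [tsum, tsum]
  refine Fintype.sum_equiv (Equiv.addRight u0) _ _ fun u => ?_
  simp only [Equiv.coe_addRight]
  rw [crv_shc, add_smul]
  congr 1
  abel

omit [Fintype F] in
theorem shc_head (u0 : F) (C : Fin (D + 1) → E) : shc u0 C 0 = crv C u0 := by
  have := crv_shc u0 (0 : F) C
  rwa [crv_zero, zero_add] at this

end grid

end Vale.Agent.P318.S
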