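import Vale.Agent.P318.S.Star2

/-!
# The local tester: correction of a table with few failing tests
-/

set_option linter.unusedSectionVars false

namespace Vale.Agent.P318.S

open Finset
open scoped BigOperators

theorem expect_single {A : Type*} [Fintype A] [DecidableEq A] (a0 : A) (f : A → ℝ) :
    𝔼 a, (if a = a0 then f a else 0) = f a0 / Fintype.card A := by
  rw [Fintype.expect_eq_sum_div_card]
  simp

section sub

variable {ι : Type*} [Fintype ι] [Nonempty ι]

theorem sub_expect {κ : ℝ} (hκ : κ < 1) (I : Finset ι) (hI : (1 - κ) * Fintype.card ι ≤ #I)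
    (X : ι → ℝ) (hX : ∀ i, 0 ≤ X i) :
    𝔼 i : {i // i ∈ I}, X i ≤ (1 - κ)⁻¹ * 𝔼 i, X i := by
  have hc : (0 : ℝ) < Fintype.card ι := by exact_mod_cast Fintype.card_pos
  have hI0 : (0 : ℝ) < #I := lt_of_lt_of_le (mul_pos (by linarith) hc) hI
  have hk : 0 < 1 - κ := by linarith
  rw [Fintype.expect_eq_sum_div_card, Fintype.expect_eq_sum_div_card, Fintype.card_coe,
    Finset.sum_coe_sort I X, inv_mul_eq_div, div_div]
  have h1 : ∑ i ∈ I, X i ≤ ∑ i, X i :=
    Finset.sum_le_sum_of_subset_of_nonneg (subset_univ _) fun i _ _ => hX i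
  have h2 : 0 ≤ ∑ i ∈ I, X i := sum_nonneg fun i _ => hX i
  calc (∑ i ∈ I, X i) / #I ≤ (∑ i ∈ I, X i) / (Fintype.card ι * (1 - κ)) :=
        div_le_div_of_nonneg_left h2 (mul_pos hc hk) (by linarith [mul_comm (1 - κ) (Fintype.card ι : ℝ)])
    _ ≤ _ := div_le_div_of_nonneg_right h1 (mul_pos hc hk).le

theorem markov (X : ι → ℝ) (hX : ∀ i, 0 ≤ X i) {t : ℝ} (ht : 0 < t) :
    (1 - (𝔼 i, X i) / t) * Fintype.card ι ≤ #(univ.filter fun i => X i ≤ t) := by
  classical
  have hc : (0 : ℝ) < Fintype.card ι := by exact_mod_cast Fintype.card_pos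
  have h1 : (#(univ.filter fun i => ¬ X i ≤ t) : ℝ) * t ≤ ∑ i, X i := by
    calc (#(univ.filter fun i => ¬ X i ≤ t) : ℝ) * t
        = ∑ i ∈ univ.filter fun i => ¬ X i ≤ t, t := by rw [sum_const, nsmul_eq_mul]
      _ ≤ ∑ i ∈ univ.filter fun i => ¬ X i ≤ t, X i :=
          sum_le_sum fun i hi => (not_le.1 (mem_filter.1 hi).2).le
      _ ≤ ∑ i, X i := Finset.sum_le_sum_of_subset_of_nonneg (subset_univ _) fun i _ _ => hX i
  have h2 : (#(univ.filter fun i => X i ≤ t) : ℝ) + #(univ.filter fun i => ¬ X i ≤ t) =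
      Fintype.card ι := by
    have := Finset.card_filter_add_card_filter_not (s := (univ : Finset ι)) fun i => X i ≤ t
    rw [card_univ] at this
    exact_mod_cast this
  have h3 : (𝔼 i, X i) * Fintype.card ι = ∑ i, X i := by
    rw [Fintype.expect_eq_sum_div_card, div_mul_cancel₀ _ hc.ne']
  have h4 : (#(univ.filter fun i => ¬ X i ≤ t) : ℝ) ≤ (∑ i, X i) / t := by
    rwa [le_div_iff₀ ht]
  have h5 : (1 - (𝔼 i, X i) / t) * Fintype.card ι =
      Fintype.card ι - (∑ i, X i) / t := by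
    rw [← h3]; ring
  rw [h5]
  linarith

end sub

section main

variable {F Y E ι : Type*} [Field F] [Fintype F] [DecidableEq F] [AddCommGroup Y] [Module F Y]
  [Fintype Y] [AddCommGroup E] [Module F E] [Fintype E] [Fintype ι] [Nonempty ι] {D : ℕ}

theorem epsDir_nonneg (τ : Y → E → ZMod 2) (r : Y) : 0 ≤ epsDir F D τ r :=
  expect_nn fun y => epsAt_nonneg τ r y

theorem eps_nonneg (r : ι → Y) (τ : Y → E → ZMod 2) : 0 ≤ eps F D r τ :=
  expect_nn fun i => epsDir_nonneg τ (r i)

/-- Either no test fails or many do. -/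
theorem dichotomy {q : ℕ} (hq : Fintype.card F = q) (hD : 1 ≤ D) (hDq : D + 2 ≤ q) (r : ι → Y)
    {A lam : ℝ} (hA0 : 0 ≤ A) (hA : A ≤ 103 / 100) (hlam : 0 ≤ lam) (hql : q * lam ≤ 65 / 1000)
    (hM : Mix F r A lam) (τ : Y → E → ZMod 2) (hdel : ∀ y c, del F D r τ y c ≤ 7 / 10)
    (hdir : ∀ i, epsDir F D τ (r i) ≤ 1 / (4 * q)) :
    eps F D r τ = 0 ∨ 1 / (10 * (q : ℝ) ^ 2) ≤ eps F D r τ := by
  have hq3 : (3 : ℝ) ≤ q := by exact_mod_cast (by omega : 3 ≤ q)
  have hq0 : (0 : ℝ) < q := by linarith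
  set x := eps F D r τ with hx
  set S := 𝔼 y : Y, 𝔼 c : E, del F D r τ y c ^ 2 with hS
  have hx0 : 0 ≤ x := eps_nonneg r τ
  have hS0 : 0 ≤ S := expect_nn fun y => expect_nn fun c => sq_nonneg _
  have h1 : 3 / 10 * S ≤ (q - 1) * (A * x ^ 2 + lam * S) := by
    refine le_trans ?_ (dstar_avg hq hD r hlam hM τ)
    rw [hS, Finset.mul_expect]
    refine expect_mono fun y => ?_
    rw [Finset.mul_expect]
    refine expect_mono fun c => ?_
    have := hdel y c
    nlinarith [sq_nonneg (del F D r τ y c)]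
  have h2 := star hq hD hDq r hlam hM τ
  rw [← hx, ← hS] at h2
  have h3 : 𝔼 i : ι, (A * epsDir F D τ (r i) ^ 2 + lam * epsDir F D τ (r i)) ≤
      (A / (4 * q) + lam) * x := by
    rw [hx, eps, Finset.mul_expect]
    refine expect_mono fun i => ?_
    have e0 := epsDir_nonneg (F := F) (D := D) τ (r i)
    have e1 := hdir i
    have e2 : epsDir F D τ (r i) ^ 2 ≤ 1 / (4 * q) * epsDir F D τ (r i) := by nlinarith
    have e3 : A * epsDir F D τ (r i) ^ 2 ≤ A * (1 / (4 * q) * epsDir F D τ (r i)) :=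
      mul_le_mul_of_nonneg_left e2 hA0
    have e4 : A / (4 * (q : ℝ)) = A * (1 / (4 * q)) := by ring
    rw [e4]
    linarith
  have h4 : ((q : ℝ) - 1) * 𝔼 i : ι, (A * epsDir F D τ (r i) ^ 2 + lam * epsDir F D τ (r i)) ≤
      (33 / 100) * x := by
    have e1 : ((q : ℝ) - 1) * (A / (4 * q) + lam) ≤ 33 / 100 := by
      have e2 : ((q : ℝ) - 1) * (A / (4 * q) + lam) ≤ q * (A / (4 * q) + lam) :=
        mul_le_mul_of_nonneg_right (by linarith) (by positivity)
      have e3 : (q : ℝ) * (A / (4 * q) + lam) = A / 4 + q * lam := by field_simp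
      linarith
    calc ((q : ℝ) - 1) * 𝔼 i : ι, (A * epsDir F D τ (r i) ^ 2 + lam * epsDir F D τ (r i))
        ≤ ((q : ℝ) - 1) * ((A / (4 * q) + lam) * x) :=
          mul_le_mul_of_nonneg_left h3 (by linarith)
      _ = ((q : ℝ) - 1) * (A / (4 * q) + lam) * x := by ring
      _ ≤ _ := mul_le_mul_of_nonneg_right e1 hx0
  have h5 : (235 / 1000) * S ≤ q * (103 / 100) * x ^ 2 := by
    have e1 : ((q : ℝ) - 1) * (lam * S) ≤ 65 / 1000 * S := by
      have : ((q : ℝ) - 1) * (lam * S) ≤ q * (lam * S) :=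
        mul_le_mul_of_nonneg_right (by linarith) (by positivity)
      have e2 : (q : ℝ) * (lam * S) = q * lam * S := by ring
      have e3 : q * lam * S ≤ 65 / 1000 * S := mul_le_mul_of_nonneg_right hql hS0
      linarith
    have e4 : ((q : ℝ) - 1) * (A * x ^ 2) ≤ q * (103 / 100) * x ^ 2 := by
      have : ((q : ℝ) - 1) * (A * x ^ 2) ≤ q * (A * x ^ 2) :=
        mul_le_mul_of_nonneg_right (by linarith) (by positivity)
      have e5 : q * (A * x ^ 2) ≤ q * (103 / 100 * x ^ 2) :=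
        mul_le_mul_of_nonneg_left (mul_le_mul_of_nonneg_right hA (sq_nonneg x)) hq0.le
      linarith
    linarith [mul_add ((q : ℝ) - 1) (A * x ^ 2) (lam * S)]
  have h6 : 67 / 100 * x ≤ q * S := by linarith
  have h7 : q * S ≤ 1000 / 235 * (103 / 100) * (q ^ 2 * x ^ 2) := by
    have := mul_le_mul_of_nonneg_left h5 hq0.le
    have e : (q : ℝ) * (q * (103 / 100) * x ^ 2) = 103 / 100 * (q ^ 2 * x ^ 2) := by ring
    rw [e] at this
    linarith
  rcases hx0.eq_or_lt with h0 | h0
  · left; exact h0.symm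
  · right
    have h8 : 67 / 100 * x ≤ 1000 / 235 * (103 / 100) * (q ^ 2 * x) * x := by
      calc 67 / 100 * x ≤ _ := h6.trans h7
        _ = _ := by ring
    have h9 : 67 / 100 ≤ 1000 / 235 * (103 / 100) * ((q : ℝ) ^ 2 * x) :=
      le_of_mul_le_mul_right h8 h0
    rw [div_le_iff₀ (by positivity)]
    nlinarith

variable [DecidableEq Y] [DecidableEq E]

/-- Changing one value. -/
def flip1 (τ : Y → E → ZMod 2) (y0 : Y) (c0 : E) (y : Y) (c : E) : ZMod 2 :=
  τ y c + if y = y0 ∧ c = c0 then 1 else 0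

theorem bad_flip (τ : Y → E → ZMod 2) (y0 : Y) (c0 : E) {r : Y} (hr : r ≠ 0) (y : Y)
    (C : Fin (D + 1) → E) :
    bad F (flip1 τ y0 c0) r y C - bad F τ r y C =
      ∑ u : F, if y + u • r = y0 ∧ crv C u = c0 then (1 - 2 * bad F τ r y C) else 0 := by
  have h1 : tsum F (flip1 τ y0 c0) r y C = tsum F τ r y C +
      ∑ u : F, if y + u • r = y0 ∧ crv C u = c0 then 1 else 0 := by
    simp only [tsum, flip1, sum_add_distrib]
  by_cases h : ∃ u : F, y + u • r = y0 ∧ crv C u = c0
  · obtain ⟨u0, hu0, hu0'⟩ := h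
    have huniq : ∀ u : F, u ≠ u0 → ¬ (y + u • r = y0 ∧ crv C u = c0) := by
      rintro u hne ⟨h3, _⟩
      apply hne
      rw [← hu0] at h3
      have h4 : u • r = u0 • r := add_left_cancel h3
      exact smul_left_injective F hr h4
    rw [Finset.sum_eq_single u0 (fun u _ hu => if_neg (huniq u hu)) (by simp),
      if_pos ⟨hu0, hu0'⟩]
    rw [Finset.sum_eq_single u0 (fun u _ hu => if_neg (huniq u hu)) (by simp),
      if_pos ⟨hu0, hu0'⟩] at h1
    simp only [bad, h1]
    rcases zmod2_cases (tsum F τ r y C) with h5 | h5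
    · rw [h5]; norm_num
    · rw [h5, show (1 : ZMod 2) + 1 = 0 from rfl]; norm_num
  · push Not at h
    have h2 : ∀ u : F, ¬ (y + u • r = y0 ∧ crv C u = c0) := fun u hu => h u hu.1 hu.2
    simp only [h2, if_false, sum_const_zero, add_zero] at h1 ⊢
    rw [bad, bad, h1, sub_self]

theorem epsDir_flip {q : ℕ} (hq : Fintype.card F = q) (hDq : D + 2 ≤ q) (τ : Y → E → ZMod 2)
    (y0 : Y) (c0 : E) {r : Y} (hr : r ≠ 0) :
    epsDir F D (flip1 τ y0 c0) r - epsDir F D τ r =
      q / (Fintype.card Y * Fintype.card E) *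
        (1 - 2 * 𝔼 C : Fin D → E, bad F τ r y0 (Fin.cons c0 C : Fin (D + 1) → E)) := by
  have hb : ∀ u : F, 𝔼 y : Y, 𝔼 C : Fin (D + 1) → E,
      (if y + u • r = y0 ∧ crv C u = c0 then (1 - 2 * bad F τ r y C) else 0) =
      (1 - 2 * 𝔼 C : Fin D → E, bad F τ r y0 (Fin.cons c0 C : Fin (D + 1) → E)) /
        (Fintype.card Y * Fintype.card E) := by
    intro u
    have h1 : ∀ (y : Y) (C : Fin (D + 1) → E),
        (if y + u • r = y0 ∧ crv C u = c0 then (1 - 2 * bad F τ r y C) else 0) =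
        if y + u • r = y0 ∧ shc u C 0 = c0 then
          (1 - 2 * bad F τ r (y + u • r) (shc u C)) else 0 := by
      intro y C
      rw [shc_head, bad, bad, tsum_shift]
    simp only [h1]
    rw [expect_shift (u • r) (fun y => 𝔼 C : Fin (D + 1) → E,
      if y = y0 ∧ shc u C 0 = c0 then (1 - 2 * bad F τ r y (shc u C)) else 0)]
    have h2 : ∀ y : Y, 𝔼 C : Fin (D + 1) → E,
        (if y = y0 ∧ shc u C 0 = c0 then (1 - 2 * bad F τ r y (shc u C)) else 0) =
        𝔼 C : Fin (D + 1) → E, if y = y0 ∧ C 0 = c0 then (1 - 2 * bad F τ r y C) else 0 :=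
      fun y => Fintype.expect_bijective _ (shc_bijective hq hDq u) _ _ fun _ => rfl
    simp only [h2]
    have h3 : ∀ y : Y, 𝔼 C : Fin (D + 1) → E,
        (if y = y0 ∧ C 0 = c0 then (1 - 2 * bad F τ r y C) else 0) =
        if y = y0 then ((1 - 2 * 𝔼 C : Fin D → E, bad F τ r y (Fin.cons c0 C : Fin (D + 1) → E)) /
          Fintype.card E) else 0 := by
      intro y
      rw [expect_cons]
      by_cases hy : y = y0
      · simp only [hy, true_and, if_true, Fin.cons_zero]
        rw [← expect_single c0 (fun c => 1 - 2 * 𝔼 C : Fin D → E,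
          bad F τ r y0 (Fin.cons c C : Fin (D + 1) → E))]
        refine expect_congr rfl fun c _ => ?_
        by_cases hc : c = c0
        · simp only [hc, if_true]
          rw [Finset.expect_sub_distrib, Fintype.expect_const, ← Finset.mul_expect]
        · simp [hc]
      · simp [hy]
    simp only [h3]
    rw [expect_single]
    field_simp
  calc epsDir F D (flip1 τ y0 c0) r - epsDir F D τ r
      = 𝔼 y : Y, 𝔼 C : Fin (D + 1) → E, (bad F (flip1 τ y0 c0) r y C - bad F τ r y C) := by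
        simp only [epsDir, epsAt, Finset.expect_sub_distrib]
    _ = ∑ u : F, 𝔼 y : Y, 𝔼 C : Fin (D + 1) → E,
          (if y + u • r = y0 ∧ crv C u = c0 then (1 - 2 * bad F τ r y C) else 0) := by
        simp only [bad_flip τ y0 c0 hr, Finset.expect_sum_comm]
    _ = _ := by
        simp only [hb, sum_const, card_univ, hq, nsmul_eq_mul]
        ring

theorem eps_flip {q : ℕ} (hq : Fintype.card F = q) (hDq : D + 2 ≤ q) (r : ι → Y)
    (hr : ∀ i, r i ≠ 0) (τ : Y → E → ZMod 2) (y0 : Y) (c0 : E) :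
    eps F D r (flip1 τ y0 c0) - eps F D r τ =
      q / (Fintype.card Y * Fintype.card E) * (1 - 2 * del F D r τ y0 c0) := by
  calc eps F D r (flip1 τ y0 c0) - eps F D r τ
      = 𝔼 i : ι, (epsDir F D (flip1 τ y0 c0) (r i) - epsDir F D τ (r i)) := by
        simp only [eps, Finset.expect_sub_distrib]
    _ = 𝔼 i : ι, (q / (Fintype.card Y * Fintype.card E) *
        (1 - 2 * 𝔼 C : Fin D → E, bad F τ (r i) y0 (Fin.cons c0 C : Fin (D + 1) → E))) :=
        expect_congr rfl fun i _ => epsDir_flip hq hDq τ y0 c0 (hr i)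
    _ = _ := by
        rw [← Finset.mul_expect, Finset.expect_sub_distrib, Fintype.expect_const,
          ← Finset.mul_expect, del]

theorem fdist_flip (σ τ : Y → E → ZMod 2) (y0 : Y) (c0 : E) :
    fdist σ (flip1 τ y0 c0) ≤ fdist σ τ + 1 / (Fintype.card Y * Fintype.card E) := by
  have h1 : ∀ (y : Y) (c : E), ind (σ y c + flip1 τ y0 c0 y c) ≤ ind (σ y c + τ y c) +
      if y = y0 then (if c = c0 then 1 else 0) else 0 := by
    intro y c
    rw [flip1, ← add_assoc]
    by_cases hy : y = y0 <;> by_cases hc : c = c0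
    · simp only [hy, hc, and_self, if_true]
      linarith [ind_le_one (σ y0 c0 + τ y0 c0 + 1), ind_nonneg (σ y0 c0 + τ y0 c0)]
    · simp [hy, hc]
    · simp [hy]
    · simp [hy]
  refine (expect_mono fun y => expect_mono fun c => h1 y c).trans (le_of_eq ?_)
  simp only [Finset.expect_add_distrib]
  congr 1
  have h2 : ∀ y : Y, 𝔼 c : E, (if y = y0 then (if c = c0 then (1 : ℝ) else 0) else 0) =
      if y = y0 then (1 / Fintype.card E : ℝ) else 0 := by
    intro y
    by_cases hy : y = y0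
    · simp only [hy, if_true]
      exact expect_single c0 fun _ => 1
    · simp [hy]
  simp only [h2]
  rw [expect_single y0 (fun _ => (1 / Fintype.card E : ℝ))]
  field_simp

omit [DecidableEq F] [Nonempty ι] [DecidableEq Y] [DecidableEq E] [Module F Y] [Module F E]
  [Fintype F] [Field F] [Fintype ι] in
theorem fdist_self (σ : Y → E → ZMod 2) : fdist σ σ = 0 := by
  have : ∀ (y : Y) (c : E), ind (σ y c + σ y c) = 0 := by
    intro y c
    rw [CharTwo.add_self_eq_zero, ind_zero]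
  simp [fdist, this]

/-- Local minimum: all failure probabilities are at most two thirds. -/
theorem exists_corrected {q : ℕ} (hq : Fintype.card F = q) (hDq : D + 2 ≤ q) (r : ι → Y)
    (hr : ∀ i, r i ≠ 0) (σ : Y → E → ZMod 2) :
    ∃ τ : Y → E → ZMod 2, fdist σ τ ≤ 3 * eps F D r σ / q ∧ eps F D r τ ≤ eps F D r σ ∧
      ∀ y c, del F D r τ y c ≤ 2 / 3 := by
  have hq0 : (0 : ℝ) < q := by exact_mod_cast (by omega : 0 < q)
  have hY : (0 : ℝ) < Fintype.card Y := by
    have : Nonempty Y := ⟨0⟩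
    exact_mod_cast Fintype.card_pos
  have hE : (0 : ℝ) < Fintype.card E := by
    have : Nonempty E := ⟨0⟩
    exact_mod_cast Fintype.card_pos
  obtain ⟨τ, hτ⟩ := Finite.exists_min (fun τ : Y → E → ZMod 2 =>
    eps F D r τ + q / 3 * fdist σ τ)
  have h0 := hτ σ
  simp only [fdist_self, mul_zero, add_zero] at h0
  have hf0 : 0 ≤ fdist σ τ := expect_nn fun y => expect_nn fun c => ind_nonneg _
  refine ⟨τ, ?_, ?_, ?_⟩
  · rw [le_div_iff₀ hq0]
    have := eps_nonneg (F := F) (D := D) r τ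
    linarith
  · have : 0 ≤ (q : ℝ) / 3 * fdist σ τ := by positivity
    linarith
  · intro y c
    have h1 := hτ (flip1 τ y c)
    have h2 := eps_flip hq hDq r hr τ y c
    have h3 := fdist_flip σ τ y c
    have h4 : (q : ℝ) / 3 * fdist σ (flip1 τ y c) ≤
        q / 3 * (fdist σ τ + 1 / (Fintype.card Y * Fintype.card E)) :=
      mul_le_mul_of_nonneg_left h3 (by positivity)
    have h5 : 0 ≤ (q : ℝ) / (Fintype.card Y * Fintype.card E) *
        (1 - 2 * del F D r τ y c) + q / 3 * (1 / (Fintype.card Y * Fintype.card E)) := by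
      linarith [mul_add ((q : ℝ) / 3) (fdist σ τ) (1 / (Fintype.card Y * Fintype.card E))]
    have h6 : (q : ℝ) / (Fintype.card Y * Fintype.card E) *
        (1 - 2 * del F D r τ y c) + q / 3 * (1 / (Fintype.card Y * Fintype.card E)) =
        (q : ℝ) / (Fintype.card Y * Fintype.card E) * (4 / 3 - 2 * del F D r τ y c) := by ring
    rw [h6] at h5
    have h7 : 0 < (q : ℝ) / (Fintype.card Y * Fintype.card E) := by positivity
    have h8 := nonneg_of_mul_nonneg_right h5 h7
    linarith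

/-- The local tester. -/
theorem ltc {q : ℕ} (hq : Fintype.card F = q) (hD : 1 ≤ D) (hDq : D + 2 ≤ q) (r : ι → Y)
    (hr : ∀ i, r i ≠ 0) {lam : ℝ} (hlam : 0 ≤ lam) (hql : q * lam ≤ 1 / 16)
    (hM : Mix F r 1 lam) (σ : Y → E → ZMod 2)
    (hε : eps F D r σ ≤ 1 / (160 * (q : ℝ) ^ 2)) :
    ∃ τ : Y → E → ZMod 2, fdist σ τ ≤ 3 * eps F D r σ / q ∧
      ∃ I : Finset ι, I.Nonempty ∧ (1 - 4 * q * eps F D r σ) * Fintype.card ι ≤ #I ∧
        ∀ i ∈ I, ∀ (y : Y) (C : Fin (D + 1) → E), tsum F τ (r i) y C = 0 := by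
  classical
  have hq3 : (3 : ℝ) ≤ q := by exact_mod_cast (by omega : 3 ≤ q)
  have hq0 : (0 : ℝ) < q := by linarith
  have hc : (0 : ℝ) < Fintype.card ι := by exact_mod_cast Fintype.card_pos
  obtain ⟨τ, h1, h2, h3⟩ := exists_corrected hq hDq r hr σ
  have hετ : eps F D r τ ≤ 1 / (160 * (q : ℝ) ^ 2) := h2.trans hε
  have he0 := eps_nonneg (F := F) (D := D) r τ
  set I := univ.filter fun i => epsDir F D τ (r i) ≤ 1 / (4 * q) with hI
  set κ : ℝ := 4 * q * eps F D r τ with hκ
  have hκ0 : 0 ≤ κ := by positivity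
  have hκ1 : κ ≤ 1 / 120 := by
    have : κ ≤ 4 * q * (1 / (160 * (q : ℝ) ^ 2)) := mul_le_mul_of_nonneg_left hετ (by positivity)
    have e : 4 * (q : ℝ) * (1 / (160 * (q : ℝ) ^ 2)) = 1 / (40 * q) := by field_simp; norm_num
    rw [e] at this
    refine this.trans ?_
    rw [div_le_div_iff₀ (by positivity) (by norm_num)]
    linarith
  have hm := markov (fun i => epsDir F D τ (r i)) (fun i => epsDir_nonneg τ (r i))
    (t := 1 / (4 * (q : ℝ))) (by positivity)
  have hm' : (1 - κ) * Fintype.card ι ≤ #I := by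
    have e : (𝔼 i, epsDir F D τ (r i)) / (1 / (4 * (q : ℝ))) = κ := by
      rw [hκ, eps]; field_simp
    rw [e] at hm
    exact hm
  have hIne : I.Nonempty := by
    rw [← Finset.card_pos]
    have : (0 : ℝ) < #I := lt_of_lt_of_le (mul_pos (by linarith) hc) hm'
    exact_mod_cast this
  haveI : Nonempty {i // i ∈ I} := hIne.to_subtype
  have hinv : (1 - κ)⁻¹ ≤ 101 / 100 := by
    rw [inv_le_comm₀ (by linarith) (by norm_num)]
    norm_num
    linarith
  have hinv0 : 0 ≤ (1 - κ)⁻¹ := inv_nonneg.2 (by linarith)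
  let r' : {i // i ∈ I} → Y := fun i => r i
  have hM' : Mix F r' (1 - κ)⁻¹ ((1 - κ)⁻¹ * lam) := by
    intro g hg u hu
    have := sub_expect (by linarith : κ < 1) I hm'
      (fun i => 𝔼 y : Y, g y * g (y + u • r i)) (fun i => expect_nn fun y => mul_nonneg (hg _) (hg _))
    refine this.trans ?_
    have h := mul_le_mul_of_nonneg_left (hM g hg u hu) hinv0
    refine h.trans (le_of_eq ?_)
    ring
  have hdel : ∀ y c, del F D r' τ y c ≤ 7 / 10 := by
    intro y c
    have := sub_expect (by linarith : κ < 1) I hm'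
      (fun i => 𝔼 C : Fin D → E, bad F τ (r i) y (Fin.cons c C : Fin (D + 1) → E))
      (fun i => expect_nn fun C => bad_nonneg _ _ _ _)
    refine this.trans ?_
    have h := mul_le_mul hinv (h3 y c) (del_nonneg _ _ _ _) (by norm_num)
    exact h.trans (by norm_num)
  have hdir : ∀ i, epsDir F D τ (r' i) ≤ 1 / (4 * q) := fun i => (mem_filter.1 i.2).2
  have hd := dichotomy hq hD hDq r' hinv0 (hinv.trans (by norm_num)) (mul_nonneg hinv0 hlam)
    (by
      have : (q : ℝ) * ((1 - κ)⁻¹ * lam) = (1 - κ)⁻¹ * (q * lam) := by ring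
      rw [this]
      have h := mul_le_mul hinv hql (by positivity) (by norm_num)
      exact h.trans (by norm_num)) hM' τ hdel hdir
  have hε' : eps F D r' τ ≤ 101 / 100 * (1 / (160 * (q : ℝ) ^ 2)) := by
    have := sub_expect (by linarith : κ < 1) I hm'
      (fun i => epsDir F D τ (r i)) (fun i => epsDir_nonneg τ (r i))
    refine this.trans (mul_le_mul hinv hετ he0 (by norm_num))
  have h0 : eps F D r' τ = 0 := by
    refine hd.resolve_right fun h => ?_
    have h9 := h.trans hε'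
    have hqq : (0 : ℝ) < (q : ℝ) ^ 2 := by positivity
    rw [show (101 : ℝ) / 100 * (1 / (160 * (q : ℝ) ^ 2)) = (101 / 16000) / (q : ℝ) ^ 2 by
      field_simp; norm_num, show (1 : ℝ) / (10 * (q : ℝ) ^ 2) = (1 / 10) / (q : ℝ) ^ 2 by
      field_simp, div_le_div_iff_of_pos_right hqq] at h9
    norm_num at h9
  refine ⟨τ, h1, I, hIne, ?_, ?_⟩
  · refine le_trans (mul_le_mul_of_nonneg_right ?_ hc.le) hm'
    have : 4 * (q : ℝ) * eps F D r τ ≤ 4 * q * eps F D r σ :=
      mul_le_mul_of_nonneg_left h2 (by positivity)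
    linarith
  · intro i hi y C
    have h10 : (fun i => epsDir F D τ (r' i)) = 0 := by
      exact (Fintype.expect_eq_zero_iff_of_nonneg (fun i => epsDir_nonneg τ (r' i))).1 h0
    have h11 : epsDir F D τ (r i) = 0 := congrFun h10 ⟨i, hi⟩
    have h12 : (fun y => epsAt F D τ (r i) y) = 0 :=
      (Fintype.expect_eq_zero_iff_of_nonneg (fun y => epsAt_nonneg τ (r i) y)).1 h11
    have h13 : epsAt F D τ (r i) y = 0 := congrFun h12 y
    have h14 : (fun C : Fin (D + 1) → E => bad F τ (r i) y C) = 0 :=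
      (Fintype.expect_eq_zero_iff_of_nonneg (fun C => bad_nonneg τ (r i) y C)).1 h13
    have h15 : bad F τ (r i) y C = 0 := congrFun h14 C
    rcases zmod2_cases (tsum F τ (r i) y C) with h | h
    · exact h
    · rw [bad, h, ind_one] at h15
      exact absurd h15 one_ne_zero

end main

end Vale.Agent.P318.S
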