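import Vale.Agent.P318.S.Deg

/-!
# Families of directions with small character sums

`Spread r lam`: every nontrivial character has mean at most `lam` on the family `r`.
`Spread.mix`: the mixing inequality. `Spread.card_zeros_le`: the distance of functions of small
degree along the directions of a spread family.
-/

namespace Vale.Agent.P318.S

open Finset
open scoped ComplexConjugate

/-- Every nontrivial character has mean at most `lam` on the family `r`. -/
def Spread {Y ι : Type*} [AddCommGroup Y] [Fintype ι] (r : ι → Y) (lam : ℝ) : Prop :=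
  ∀ χ : AddChar Y ℂ, χ ≠ 0 → ‖∑ i, χ (r i)‖ ≤ lam * Fintype.card ι

section Fourier

variable {Y : Type*} [AddCommGroup Y] [Fintype Y]

/-- Fourier coefficients. -/
noncomputable def fco (g : Y → ℝ) (χ : AddChar Y ℂ) : ℂ := ∑ x, (g x : ℂ) * χ x

theorem fco_zero (g : Y → ℝ) : fco g 0 = ((∑ x, g x : ℝ) : ℂ) := by
  unfold fco
  push_cast
  exact sum_congr rfl fun x _ => by simp

omit [Fintype Y] in
theorem char_sum {κ : Type*} (χ : AddChar Y ℂ) (s : Finset κ) (r : κ → Y) :
    χ (∑ k ∈ s, r k) = ∏ k ∈ s, χ (r k) := by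
  classical
  induction s using Finset.induction_on with
  | empty => simp
  | insert a s ha ih => rw [sum_insert ha, prod_insert ha, AddChar.map_add_eq_mul, ih]

theorem corr (g h : Y → ℝ) (r : Y) :
    (Fintype.card Y : ℂ) * ∑ x, (g x : ℂ) * (h (x + r) : ℂ) =
      ∑ χ : AddChar Y ℂ, conj (fco g χ) * fco h χ * χ (-r) := by
  classical
  have h1 : ∀ χ : AddChar Y ℂ, conj (fco g χ) * fco h χ * χ (-r) =
      ∑ x, ∑ y, ((g x : ℂ) * (h y : ℂ)) * χ (y - x - r) := by
    intro χ
    unfold fco
    rw [map_sum, sum_mul_sum, sum_mul]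
    refine sum_congr rfl fun x _ => ?_
    rw [sum_mul]
    refine sum_congr rfl fun y _ => ?_
    rw [map_mul, Complex.conj_ofReal, ← AddChar.map_neg_eq_conj, sub_eq_add_neg, sub_eq_add_neg,
      AddChar.map_add_eq_mul, AddChar.map_add_eq_mul]
    ring
  simp_rw [h1]
  rw [sum_comm, mul_sum]
  refine sum_congr rfl fun x _ => ?_
  rw [sum_comm]
  have h2 : ∀ y : Y, ∑ χ : AddChar Y ℂ, ((g x : ℂ) * (h y : ℂ)) * χ (y - x - r) =
      if y = x + r then (Fintype.card Y : ℂ) * ((g x : ℂ) * (h y : ℂ)) else 0 := by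
    intro y
    rw [← mul_sum, AddChar.sum_apply_eq_ite]
    have h3 : (y - x - r = 0) ↔ y = x + r := by
      rw [sub_sub, sub_eq_zero]
    by_cases hy : y = x + r
    · rw [if_pos (h3.2 hy), if_pos hy]; ring
    · rw [if_neg (fun h => hy (h3.1 h)), if_neg hy, mul_zero]
  simp_rw [h2]
  rw [Finset.sum_ite_eq' univ (x + r), if_pos (mem_univ _)]

theorem parseval (g : Y → ℝ) :
    ∑ χ : AddChar Y ℂ, ‖fco g χ‖ ^ 2 = Fintype.card Y * ∑ x, g x ^ 2 := by
  have h := corr g g 0
  have h1 : ((∑ χ : AddChar Y ℂ, ‖fco g χ‖ ^ 2 : ℝ) : ℂ) =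
      ((Fintype.card Y * ∑ x, g x ^ 2 : ℝ) : ℂ) := by
    push_cast
    calc _ = ∑ χ : AddChar Y ℂ, conj (fco g χ) * fco g χ * χ (-0) := by
          refine sum_congr rfl fun χ _ => ?_
          rw [neg_zero, AddChar.map_zero_eq_one, mul_one, Complex.conj_mul']
      _ = _ := by
          rw [← h]
          congr 1
          refine sum_congr rfl fun x _ => ?_
          rw [add_zero, sq]
  exact_mod_cast h1

/-- `Σ g² - (Σ g)² / card Y` -/
noncomputable def vari (g : Y → ℝ) : ℝ := ∑ x, g x ^ 2 - (∑ x, g x) ^ 2 / Fintype.card Y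

theorem sum_ne_zero_sq [DecidableEq (AddChar Y ℂ)] (g : Y → ℝ) :
    ∑ χ ∈ univ.erase (0 : AddChar Y ℂ), ‖fco g χ‖ ^ 2 = Fintype.card Y * vari g := by
  have hc : (Fintype.card Y : ℝ) ≠ 0 := by
    have := Fintype.card_pos (α := Y)
    positivity
  have h1 := Finset.add_sum_erase (univ : Finset (AddChar Y ℂ)) (fun χ => ‖fco g χ‖ ^ 2)
    (mem_univ 0)
  rw [parseval, fco_zero, Complex.norm_real, Real.norm_eq_abs, sq_abs] at h1
  unfold vari
  field_simp
  linarith

theorem vari_nonneg (g : Y → ℝ) : 0 ≤ vari g := by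
  classical
  have h1 := sum_ne_zero_sq g
  have h2 : 0 ≤ (Fintype.card Y : ℝ) * vari g := by
    rw [← h1]; exact sum_nonneg fun _ _ => by positivity
  have hc : (0 : ℝ) < Fintype.card Y := by
    have := Fintype.card_pos (α := Y)
    positivity
  exact nonneg_of_mul_nonneg_right h2 hc

theorem vari_le (g : Y → ℝ) : vari g ≤ ∑ x, g x ^ 2 := by
  unfold vari
  have : 0 ≤ (∑ x, g x) ^ 2 / (Fintype.card Y : ℝ) := by positivity
  linarith

/-- For an indicator function: `n₁ n₀ / n`. -/
theorem vari_indicator (p : Y → Prop) [DecidablePred p] :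
    vari (fun y => if p y then (1 : ℝ) else 0) =
      (#{y | p y} : ℝ) * (#{y | ¬ p y} : ℝ) / Fintype.card Y := by
  have hc : (Fintype.card Y : ℝ) ≠ 0 := by
    have := Fintype.card_pos (α := Y)
    positivity
  have h1 : ∑ x, (if p x then (1 : ℝ) else 0) = #{y | p y} := by
    rw [Finset.sum_boole]
  have h2 : ∑ x, (if p x then (1 : ℝ) else 0) ^ 2 = #{y | p y} := by
    rw [← h1]
    exact sum_congr rfl fun x _ => by split_ifs <;> norm_num
  have h3 : (#{y | p y} : ℝ) + (#{y | ¬ p y} : ℝ) = Fintype.card Y := by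
    have := card_filter_add_card_filter_not (s := (univ : Finset Y)) p
    rw [card_univ] at this
    exact_mod_cast this
  unfold vari
  simp only [h1, h2]
  field_simp
  rw [← h3]
  ring

end Fourier

namespace Spread

variable {Y ι : Type*} [AddCommGroup Y] [Fintype Y] [Fintype ι] {r : ι → Y} {lam : ℝ}

/-- **Mixing.** -/
theorem mix (h : Spread r lam) (f g : Y → ℝ) :
    |∑ i, ∑ y, f y * g (y + r i) - Fintype.card ι / Fintype.card Y * ((∑ y, f y) * ∑ y, g y)| ≤
      lam * Fintype.card ι * (√(vari f) * √(vari g)) := by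
  classical
  set N : ℝ := (Fintype.card Y : ℝ) with hN
  have hN0 : 0 < N := by
    have := Fintype.card_pos (α := Y)
    rw [hN]; positivity
  have h1 : (N : ℂ) * ((∑ i, ∑ y, f y * g (y + r i) : ℝ) : ℂ) =
      ∑ χ : AddChar Y ℂ, conj (fco f χ) * fco g χ * conj (∑ i, χ (r i)) := by
    push_cast
    rw [mul_sum]
    have h2 : ∀ i, (N : ℂ) * ∑ y, (f y : ℂ) * (g (y + r i) : ℂ) =
        ∑ χ : AddChar Y ℂ, conj (fco f χ) * fco g χ * χ (-r i) := by
      intro i
      rw [← corr, hN]
      norm_cast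
    simp_rw [h2]
    rw [sum_comm]
    refine sum_congr rfl fun χ _ => ?_
    rw [← mul_sum, map_sum]
    congr 1
    exact sum_congr rfl fun i _ => by rw [AddChar.map_neg_eq_conj]
  have h3 : (N : ℂ) * ((∑ i, ∑ y, f y * g (y + r i) : ℝ) : ℂ) -
      ((Fintype.card ι * ((∑ y, f y) * ∑ y, g y) : ℝ) : ℂ) =
      ∑ χ ∈ univ.erase (0 : AddChar Y ℂ), conj (fco f χ) * fco g χ * conj (∑ i, χ (r i)) := by
    rw [h1, ← Finset.add_sum_erase (univ : Finset (AddChar Y ℂ)) _ (mem_univ 0), fco_zero, fco_zero]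
    have h4 : ∑ i, (0 : AddChar Y ℂ) (r i) = (Fintype.card ι : ℂ) := by
      simp
    rw [h4, Complex.conj_ofReal, Complex.conj_natCast]
    push_cast
    ring
  have h5 : ‖(N : ℂ) * ((∑ i, ∑ y, f y * g (y + r i) : ℝ) : ℂ) -
      ((Fintype.card ι * ((∑ y, f y) * ∑ y, g y) : ℝ) : ℂ)‖ ≤
      lam * Fintype.card ι * (N * (√(vari f) * √(vari g))) := by
    rw [h3]
    have h6 : ∑ χ ∈ univ.erase (0 : AddChar Y ℂ), ‖fco f χ‖ * ‖fco g χ‖ ≤
        N * (√(vari f) * √(vari g)) := by
      have h7 := Real.sum_mul_le_sqrt_mul_sqrt (univ.erase (0 : AddChar Y ℂ))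
        (fun χ => ‖fco f χ‖) (fun χ => ‖fco g χ‖)
      rw [sum_ne_zero_sq, sum_ne_zero_sq, Real.sqrt_mul (by positivity),
        Real.sqrt_mul (by positivity)] at h7
      refine h7.trans (le_of_eq ?_)
      rw [show √(Fintype.card Y : ℝ) * √(vari f) * (√(Fintype.card Y : ℝ) * √(vari g)) =
        (√(Fintype.card Y : ℝ) * √(Fintype.card Y : ℝ)) * (√(vari f) * √(vari g)) by ring,
        Real.mul_self_sqrt (by positivity)]
    rcases (univ.erase (0 : AddChar Y ℂ)).eq_empty_or_nonempty with he | ⟨χ₀, hχ₀⟩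
    · have hv : ∀ k : Y → ℝ, vari k = 0 := by
        intro k
        have h7 := sum_ne_zero_sq k
        rw [he, sum_empty] at h7
        rcases mul_eq_zero.1 h7.symm with h8 | h8
        · exact absurd h8 hN0.ne'
        · exact h8
      rw [he, sum_empty, norm_zero, hv f, Real.sqrt_zero, zero_mul, mul_zero, mul_zero]
    · have hl : 0 ≤ lam * Fintype.card ι :=
        (norm_nonneg _).trans (h χ₀ (ne_of_mem_erase hχ₀))
      calc ‖∑ χ ∈ univ.erase (0 : AddChar Y ℂ), conj (fco f χ) * fco g χ *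
            conj (∑ i, χ (r i))‖
          ≤ ∑ χ ∈ univ.erase (0 : AddChar Y ℂ), ‖conj (fco f χ) * fco g χ *
            conj (∑ i, χ (r i))‖ := norm_sum_le _ _
        _ ≤ ∑ χ ∈ univ.erase (0 : AddChar Y ℂ),
            (‖fco f χ‖ * ‖fco g χ‖) * (lam * Fintype.card ι) := by
            refine sum_le_sum fun χ hχ => ?_
            rw [norm_mul, norm_mul, Complex.norm_conj, Complex.norm_conj]
            exact mul_le_mul_of_nonneg_left (h χ (ne_of_mem_erase hχ)) (by positivity)
        _ = lam * Fintype.card ι * ∑ χ ∈ univ.erase (0 : AddChar Y ℂ), ‖fco f χ‖ * ‖fco g χ‖ := by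
            rw [← sum_mul, mul_comm]
        _ ≤ _ := mul_le_mul_of_nonneg_left h6 hl
  have h8 : (N : ℂ) * ((∑ i, ∑ y, f y * g (y + r i) : ℝ) : ℂ) -
      ((Fintype.card ι * ((∑ y, f y) * ∑ y, g y) : ℝ) : ℂ) =
      ((N * (∑ i, ∑ y, f y * g (y + r i) -
        Fintype.card ι / N * ((∑ y, f y) * ∑ y, g y)) : ℝ) : ℂ) := by
    rw [mul_sub]
    have : N * (Fintype.card ι / N * ((∑ y, f y) * ∑ y, g y)) =
        Fintype.card ι * ((∑ y, f y) * ∑ y, g y) := by
      field_simp
    rw [this]
    push_cast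
    ring
  rw [h8, Complex.norm_real, Real.norm_eq_abs, abs_mul, abs_of_pos hN0] at h5
  have h9 : N * |∑ i, ∑ y, f y * g (y + r i) -
      Fintype.card ι / N * ((∑ y, f y) * ∑ y, g y)| ≤
      N * (lam * Fintype.card ι * (√(vari f) * √(vari g))) := by
    refine h5.trans (le_of_eq ?_)
    ring
  exact le_of_mul_le_mul_left h9 hN0

/-- Mixing for one function. -/
theorem mix_self (h : Spread r lam) (f : Y → ℝ) :
    |∑ i, ∑ y, f y * f (y + r i) - Fintype.card ι / Fintype.card Y * (∑ y, f y) ^ 2| ≤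
      lam * Fintype.card ι * vari f := by
  have := h.mix f f
  rwa [Real.mul_self_sqrt (vari_nonneg f), ← sq] at this

theorem nonneg [Nontrivial Y] [Nonempty ι] (h : Spread r lam) : 0 ≤ lam := by
  classical
  have h1 : ∃ χ : AddChar Y ℂ, χ ≠ 0 := by
    obtain ⟨x, hx⟩ := exists_ne (0 : Y)
    obtain ⟨χ, hχ⟩ := AddChar.exists_apply_ne_zero (α := Y) (a := x) |>.2 hx
    refine ⟨χ, ?_⟩
    rintro rfl
    exact hχ (by simp)
  obtain ⟨χ, hχ⟩ := h1
  have h2 := (norm_nonneg _).trans (h χ hχ)
  have h3 : (0 : ℝ) < Fintype.card ι := by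
    have := Fintype.card_pos (α := ι)
    positivity
  exact nonneg_of_mul_nonneg_left h2 h3

omit [Fintype Y] in
theorem mono (h : Spread r lam) {lam' : ℝ} (hl : lam ≤ lam') : Spread r lam' := fun χ hχ =>
  (h χ hχ).trans (mul_le_mul_of_nonneg_right hl (by positivity))

omit [Fintype Y] in
/-- Scaling. -/
theorem smul {F : Type*} [Field F] [Module F Y] (h : Spread r lam) {u : F} (hu : u ≠ 0) :
    Spread (fun i => u • r i) lam := by
  intro χ hχ
  have h1 : χ.compAddMonoidHom (DistribSMul.toAddMonoidHom Y u) ≠ 0 := by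
    intro h0
    apply hχ
    ext y
    have h2 := DFunLike.congr_fun h0 (u⁻¹ • y)
    rw [AddChar.compAddMonoidHom_apply, DistribSMul.toAddMonoidHom_apply, smul_inv_smul₀ hu]
      at h2
    rw [h2, AddChar.zero_apply, AddChar.zero_apply]
  have h3 := h _ h1
  simpa only [AddChar.compAddMonoidHom_apply, DistribSMul.toAddMonoidHom_apply] using h3

omit [Fintype Y] in
theorem norm_apply_le_one [Finite Y] (χ : AddChar Y ℂ) (y : Y) : ‖χ y‖ ≤ 1 :=
  (χ.norm_apply y).le

/-- Throwing away few directions. -/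
theorem subtype (h : Spread r lam) (p : ι → Prop) [DecidablePred p] {η : ℝ} (hη : η < 1)
    (hl : 0 ≤ lam) (hp : (#{i | ¬ p i} : ℝ) ≤ η * Fintype.card ι) :
    Spread (fun i : {i // p i} => r i) ((lam + η) / (1 - η)) := by
  intro χ hχ
  have h1 := h χ hχ
  have h2 : ∑ i : {i // p i}, χ (r i) = ∑ i, χ (r i) - ∑ i ∈ univ.filter (fun i => ¬ p i), χ (r i) := by
    rw [← Finset.sum_filter_add_sum_filter_not univ p, add_sub_cancel_right,
      ← Finset.sum_subtype_eq_sum_filter]
    simp
  have h3 : ‖∑ i ∈ univ.filter (fun i => ¬ p i), χ (r i)‖ ≤ η * Fintype.card ι := by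
    refine le_trans (norm_sum_le _ _) (le_trans ?_ hp)
    refine le_trans (sum_le_sum fun i _ => norm_apply_le_one χ (r i)) ?_
    simp
  have h4 : ((1 - η) * Fintype.card ι : ℝ) ≤ Fintype.card {i // p i} := by
    have h5 := card_filter_add_card_filter_not (s := (univ : Finset ι)) p
    rw [card_univ] at h5
    have h6 : (Fintype.card {i // p i} : ℝ) = #{i | p i} := by
      rw [Fintype.card_subtype]
    rw [h6]
    have h7 : (#{i | p i} : ℝ) + #{i | ¬ p i} = Fintype.card ι := by exact_mod_cast h5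
    nlinarith
  have h8 : 0 < 1 - η := by linarith
  have h9 : 0 ≤ η ∨ Fintype.card ι = 0 := by
    rcases Nat.eq_zero_or_pos (Fintype.card ι) with h0 | h0
    · exact Or.inr h0
    · left
      have : (0 : ℝ) ≤ #{i | ¬ p i} := by positivity
      have h10 : (0 : ℝ) < Fintype.card ι := by exact_mod_cast h0
      by_contra hneg
      push Not at hneg
      nlinarith
  rw [h2]
  refine (norm_sub_le _ _).trans ?_
  rcases h9 with h9 | h9
  · calc ‖∑ i, χ (r i)‖ + ‖∑ i ∈ univ.filter (fun i => ¬ p i), χ (r i)‖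
        ≤ lam * Fintype.card ι + η * Fintype.card ι := add_le_add h1 h3
      _ = (lam + η) / (1 - η) * ((1 - η) * Fintype.card ι) := by field_simp
      _ ≤ (lam + η) / (1 - η) * Fintype.card {i // p i} :=
          mul_le_mul_of_nonneg_left h4 (by positivity)
  · have h11 : Fintype.card {i // p i} = 0 :=
      Nat.eq_zero_of_le_zero (h9 ▸ Fintype.card_subtype_le p)
    rw [h9] at h1 h3
    rw [h11]
    simp only [Nat.cast_zero, mul_zero] at *
    linarith

omit [Fintype Y] in
/-- Sums of two independent directions. -/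
theorem add {κ : Type*} [Fintype κ] {r' : κ → Y} {lam' : ℝ} (h : Spread r lam) (h' : Spread r' lam')
    (hl : 0 ≤ lam) : Spread (fun i : ι × κ => r i.1 + r' i.2) (lam * lam') := by
  intro χ hχ
  have h1 : ∑ i : ι × κ, χ (r i.1 + r' i.2) = (∑ i, χ (r i)) * ∑ j, χ (r' j) := by
    rw [Fintype.sum_prod_type, sum_mul_sum]
    exact sum_congr rfl fun i _ => sum_congr rfl fun j _ => by rw [AddChar.map_add_eq_mul]
  rw [h1, norm_mul, Fintype.card_prod]
  push_cast
  calc ‖∑ i, χ (r i)‖ * ‖∑ j, χ (r' j)‖ ≤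
      (lam * Fintype.card ι) * (lam' * Fintype.card κ) :=
        mul_le_mul (h χ hχ) (h' χ hχ) (norm_nonneg _) (by positivity)
    _ = _ := by ring

omit [Fintype Y] in
/-- Sums of `t` independent directions. -/
theorem pow (h : Spread r lam) (t : ℕ) :
    Spread (fun i : Fin t → ι => ∑ k, r (i k)) (lam ^ t) := by
  classical
  intro χ hχ
  have h1 : ∑ i : Fin t → ι, χ (∑ k, r (i k)) = (∑ i, χ (r i)) ^ t := by
    rw [Fintype.sum_pow]
    exact sum_congr rfl fun i _ => char_sum χ univ fun k => r (i k)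
  rw [h1, norm_pow, Fintype.card_fun, Fintype.card_fin]
  push_cast
  rw [← mul_pow]
  exact pow_le_pow_left₀ (norm_nonneg _) (h χ hχ) t

end Spread

section Dist

variable {F : Type*} [Field F] [Fintype F] {Y W ι : Type*} [AddCommGroup Y] [Module F Y] [Fintype Y]
  [AddCommGroup W] [Module F W] [Fintype ι] {r : ι → Y} {lam : ℝ}

/-- **Distance.** A nonzero function of degree at most `d` along the directions of a spread family
has at most `(d / (q - 1) + lam) card Y` zeros. -/
theorem Spread.card_zeros_le [Nonempty ι] (h : Spread r lam) (hl : 0 ≤ lam) {f : Y → W} {d : ℕ}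
    (hf : ∀ i, DegAlong F f (r i) d) (h0 : ∃ y, f y ≠ 0) [DecidablePred fun y => f y = 0] :
    (#{y | f y = 0} : ℝ) ≤ (d / (Fintype.card F - 1) + lam) * Fintype.card Y := by
  classical
  set q : ℝ := (Fintype.card F : ℝ) with hq
  have hq1 : 1 < q := by
    rw [hq]; exact_mod_cast Fintype.one_lt_card
  set N : ℝ := (Fintype.card Y : ℝ) with hN
  have hN0 : 0 < N := by
    have : Nonempty Y := ⟨h0.choose⟩
    have := Fintype.card_pos (α := Y)
    rw [hN]; positivity
  set I : ℝ := (Fintype.card ι : ℝ) with hI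
  have hI0 : 0 < I := by
    have := Fintype.card_pos (α := ι)
    rw [hI]; positivity
  set Z : ℝ := (#{y | f y = 0} : ℝ) with hZ
  set P : ℝ := (#{y | ¬ f y = 0} : ℝ) with hP
  have hP0 : 0 < P := by
    obtain ⟨y, hy⟩ := h0
    have : 0 < #{y | ¬ f y = 0} := card_pos.2 ⟨y, by simp [hy]⟩
    rw [hP]; exact_mod_cast this
  have hZ0 : 0 ≤ Z := by rw [hZ]; positivity
  have hZP : Z + P = N := by
    have := card_filter_add_card_filter_not (s := (univ : Finset Y)) (fun y => f y = 0)
    rw [card_univ] at this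
    rw [hZ, hP, hN]
    exact_mod_cast this
  let a : Y → ℝ := fun y => if ¬ f y = 0 then 1 else 0
  let b : Y → ℝ := fun y => if f y = 0 then 1 else 0
  have ha : vari a = P * Z / N := by
    have := vari_indicator (fun y => ¬ f y = 0)
    simp only [not_not] at this
    exact this
  have hb : vari b = Z * P / N := vari_indicator (fun y => f y = 0)
  have hsa : ∑ y, a y = P := by
    show ∑ y, (if ¬ f y = 0 then (1 : ℝ) else 0) = P
    rw [Finset.sum_boole]
  have hsb : ∑ y, b y = Z := by
    show ∑ y, (if f y = 0 then (1 : ℝ) else 0) = Z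
    rw [Finset.sum_boole]
  have hlow : ∀ u : F, u ≠ 0 →
      I * (P * Z / N) * (1 - lam) ≤ ∑ i, ∑ y, a y * b (y + u • r i) := by
    intro u hu
    have h1 := (h.smul hu).mix a b
    rw [hsa, hsb, ha, hb, mul_comm Z P, Real.mul_self_sqrt (by positivity)] at h1
    have h2 := (abs_le.1 h1).1
    have h3 : I / N * (P * Z) = I * (P * Z / N) := by ring
    rw [← hI, ← hN, h3] at h2
    linarith
  have hup : ∑ u ∈ univ.erase (0 : F), ∑ i, ∑ y, a y * b (y + u • r i) ≤ d * (P * I) := by
    have h1 : ∀ i y, ∑ u ∈ univ.erase (0 : F), a y * b (y + u • r i) ≤ d * a y := by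
      intro i y
      by_cases hy : f y = 0
      · have : a y = 0 := if_neg (not_not.2 hy)
        simp [this]
      · have h2 : a y = 1 := if_pos hy
        rw [h2]
        simp only [one_mul, mul_one]
        calc ∑ u ∈ univ.erase (0 : F), b (y + u • r i) ≤ ∑ u : F, b (y + u • r i) := by
              refine sum_le_sum_of_subset_of_nonneg (erase_subset _ _) fun u _ _ => ?_
              show (0 : ℝ) ≤ if f (y + u • r i) = 0 then 1 else 0
              split_ifs <;> norm_num
          _ = (#{u : F | f (y + u • r i) = 0} : ℝ) := by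
              show ∑ u : F, (if f (y + u • r i) = 0 then (1 : ℝ) else 0) = _
              rw [Finset.sum_boole]
          _ ≤ d := by exact_mod_cast (hf i).card_zeros hy
    calc ∑ u ∈ univ.erase (0 : F), ∑ i, ∑ y, a y * b (y + u • r i)
        = ∑ i, ∑ y, ∑ u ∈ univ.erase (0 : F), a y * b (y + u • r i) := by
          rw [sum_comm]
          exact sum_congr rfl fun i _ => sum_comm
      _ ≤ ∑ i : ι, ∑ y, d * a y := sum_le_sum fun i _ => sum_le_sum fun y _ => h1 i y
      _ = d * (P * I) := by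
          rw [sum_const, card_univ, nsmul_eq_mul, ← mul_sum, hsa, ← hI]
          ring
  have hcard : (#(univ.erase (0 : F)) : ℝ) = q - 1 := by
    rw [card_erase_of_mem (mem_univ _), card_univ, Nat.cast_sub Fintype.card_pos, Nat.cast_one, hq]
  have hlow' : (q - 1) * (I * (P * Z / N) * (1 - lam)) ≤ d * (P * I) := by
    refine le_trans ?_ hup
    rw [← hcard, ← nsmul_eq_mul]
    exact card_nsmul_le_sum _ _ _ fun u hu => hlow u (ne_of_mem_erase hu)
  have h1 : (q - 1) * (Z / N) * (1 - lam) ≤ d := by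
    have h2 : (q - 1) * (I * (P * Z / N) * (1 - lam)) =
        ((q - 1) * (Z / N) * (1 - lam)) * (P * I) := by
      field_simp
    rw [h2] at hlow'
    exact le_of_mul_le_mul_right hlow' (by positivity)
  have h3 : Z / N ≤ 1 := by
    rw [div_le_one hN0]; linarith
  have h4 : Z / N ≤ d / (q - 1) + lam := by
    have h5 : (Z / N) * (1 - lam) ≤ d / (q - 1) := by
      rw [le_div_iff₀ (by linarith)]
      linarith
    nlinarith
  calc Z = Z / N * N := by field_simp
    _ ≤ _ := mul_le_mul_of_nonneg_right h4 hN0.le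

/-- Two functions of degree at most `d` that agree on many points are equal. -/
theorem Spread.eq_of_close [Nonempty ι] (h : Spread r lam) (hl : 0 ≤ lam) {f g : Y → W} {d : ℕ}
    (hf : ∀ i, DegAlong F f (r i) d) (hg : ∀ i, DegAlong F g (r i) d)
    [DecidablePred fun y => f y = g y]
    (hc : (d / (Fintype.card F - 1) + lam) * Fintype.card Y < (#{y | f y = g y} : ℝ)) :
    f = g := by
  classical
  by_contra hne
  have h1 : ∃ y, f y - g y ≠ 0 := by
    by_contra hall
    push Not at hall
    exact hne (funext fun y => sub_eq_zero.1 (hall y))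
  have h2 := h.card_zeros_le hl (f := fun y => f y - g y) (fun i => (hf i).sub (hg i)) h1
  have h3 : (#{y | f y = g y} : ℝ) = (#{y | f y - g y = 0} : ℝ) := by
    congr 2
    ext y
    simp [sub_eq_zero]
  rw [h3] at hc
  exact absurd h2 (not_le.2 hc)

end Dist

end Vale.Agent.P318.S
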