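import Vale.Agent.P318.S.Grid

/-!
# The two inequalities for the failure probabilities
-/

namespace Vale.Agent.P318.S

open Finset
open scoped BigOperators

section homs

variable {F E : Type*} [Field F] [AddCommGroup E] [Module F E] {D : ℕ}

/-- `rowC` as a homomorphism. -/
def rowHom (u' : F) : (Fin (D + 1) → Fin (D + 1) → E) →+ (Fin (D + 1) → E) where
  toFun c := rowC c u'
  map_zero' := by funext i; simp [rowC, crv]
  map_add' c c' := by funext i; exact crv_add _ _ _

/-- `colC` as a homomorphism. -/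
def colHom (u : F) : (Fin (D + 1) → Fin (D + 1) → E) →+ (Fin (D + 1) → E) where
  toFun c := colC c u
  map_zero' := by funext i; simp [colC, crv]
  map_add' c c' := by funext j; exact crv_add (fun i => c i j) (fun i => c' i j) u

/-- `shc` as a homomorphism. -/
def shcHom (u : F) : (Fin (D + 1) → E) →+ (Fin (D + 1) → E) where
  toFun c := shc u c
  map_zero' := by funext i; simp [shc]
  map_add' c c' := shc_add u c c'

/-- The tail of a tuple as a homomorphism. -/
def tailHom : (Fin (D + 1) → E) →+ (Fin D → E) where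
  toFun c := fun j => c j.succ
  map_zero' := rfl
  map_add' _ _ := rfl

theorem rowHom_zero_surj : Function.Surjective (rowHom (0 : F) : _ →+ (Fin (D + 1) → E)) := by
  intro A
  refine ⟨fun i => Fin.cons (A i) 0, ?_⟩
  funext i
  show crv (Fin.cons (A i) (0 : Fin D → E) : Fin (D + 1) → E) (0 : F) = A i
  rw [crv_zero, Fin.cons_zero]

theorem rows_surj (hD : 1 ≤ D) {u' : F} (hu : u' ≠ 0) :
    Function.Surjective ((rowHom (0 : F)).prod (rowHom u') :
      (Fin (D + 1) → Fin (D + 1) → E) →+ (Fin (D + 1) → E) × (Fin (D + 1) → E)) := by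
  rintro ⟨A, B⟩
  refine ⟨fun i => Fin.cons (A i) (Pi.single (⟨0, hD⟩ : Fin D) (u'⁻¹ • (B i - A i))), ?_⟩
  refine Prod.ext ?_ ?_
  · funext i
    show crv (Fin.cons (A i) _ : Fin (D + 1) → E) (0 : F) = A i
    rw [crv_zero, Fin.cons_zero]
  · funext i
    show crv (Fin.cons (A i) _ : Fin (D + 1) → E) u' = B i
    rw [crv_cons, Finset.sum_eq_single (⟨0, hD⟩ : Fin D)]
    · simp [smul_smul, mul_inv_cancel₀ hu]
    · intro j _ hj
      rw [Pi.single_eq_of_ne hj, smul_zero]
    · simp

variable [Fintype F] [Finite E]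

theorem rowcol_surj {q : ℕ} (hq : Fintype.card F = q) (hDq : D + 2 ≤ q) (u : F) :
    Function.Surjective (((Pi.evalAddMonoidHom (fun _ : Fin (D + 1) => E) 0).comp (colHom u)).prod
      ((tailHom.comp ((shcHom u).comp (rowHom (0 : F)))).prod (tailHom.comp (colHom u))) :
      (Fin (D + 1) → Fin (D + 1) → E) →+ E × (Fin D → E) × (Fin D → E)) := by
  rintro ⟨a0, A', B'⟩
  obtain ⟨R, hR⟩ := (shc_bijective hq hDq u).2 (Fin.cons a0 A' : Fin (D + 1) → E)
  refine ⟨fun i => Fin.cons (R i) (fun j => if i = 0 then B' j else 0), ?_⟩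
  have h0 : rowC (fun i => (Fin.cons (R i) (fun j => if i = 0 then B' j else 0) :
      Fin (D + 1) → E)) (0 : F) = R := by
    funext i
    show crv (Fin.cons (R i) _ : Fin (D + 1) → E) (0 : F) = R i
    rw [crv_zero, Fin.cons_zero]
  refine Prod.ext ?_ (Prod.ext ?_ ?_)
  · show colC _ u 0 = a0
    have : colC (fun i => (Fin.cons (R i) (fun j => if i = 0 then B' j else 0) :
      Fin (D + 1) → E)) u 0 = crv R u := rfl
    rw [this, ← shc_head, hR, Fin.cons_zero]
  · show (fun j : Fin D => shc u (rowC _ (0 : F)) j.succ) = A'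
    rw [h0, hR]
    rfl
  · funext j
    show crv (fun i : Fin (D + 1) => if i = 0 then B' j else 0) u = B' j
    rw [crv, Fin.sum_univ_succ]
    simp

end homs

section main

variable {F Y E ι : Type*} [Field F] [Fintype F] [DecidableEq F] [AddCommGroup Y] [Module F Y]
  [Fintype Y] [AddCommGroup E] [Module F E] [Fintype E] [Fintype ι] [Nonempty ι] {D : ℕ}

omit [DecidableEq F] [Fintype Y] [Fintype E] in
theorem bad_nonneg (τ : Y → E → ZMod 2) (r y : Y) (C : Fin (D + 1) → E) : 0 ≤ bad F τ r y C :=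
  ind_nonneg _

omit [DecidableEq F] [Fintype Y] [Fintype E] in
theorem bad_le_one (τ : Y → E → ZMod 2) (r y : Y) (C : Fin (D + 1) → E) : bad F τ r y C ≤ 1 :=
  ind_le_one _

omit [DecidableEq F] [Fintype Y] in
theorem epsAt_nonneg (τ : Y → E → ZMod 2) (r y : Y) : 0 ≤ epsAt F D τ r y :=
  expect_nn fun C => bad_nonneg τ r y C

omit [DecidableEq F] [Fintype Y] in
theorem epsAt_le_one (τ : Y → E → ZMod 2) (r y : Y) : epsAt F D τ r y ≤ 1 := by
  have : Nonempty E := ⟨0⟩
  exact expect_le_of fun C => bad_le_one τ r y C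

omit [DecidableEq F] [Fintype Y] in
theorem del_nonneg (r : ι → Y) (τ : Y → E → ZMod 2) (y : Y) (c : E) : 0 ≤ del F D r τ y c :=
  expect_nn fun _ => expect_nn fun _ => bad_nonneg _ _ _ _

/-- The two row term. -/
theorem term_rows (hD : 1 ≤ D) (τ : Y → E → ZMod 2) (r r' : Y) {u' : F} (hu : u' ≠ 0) :
    𝔼 y : Y, 𝔼 c : Fin (D + 1) → Fin (D + 1) → E,
        bad F τ r y (rowC c (0 : F)) * bad F τ r (y + u' • r') (rowC c u') =
      𝔼 y : Y, epsAt F D τ r y * epsAt F D τ r (y + u' • r') := by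
  refine expect_congr rfl fun y _ => ?_
  have h := expect_affine _ (rows_surj (E := E) hD hu) 0
    (fun x : (Fin (D + 1) → E) × (Fin (D + 1) → E) =>
      bad F τ r y x.1 * bad F τ r (y + u' • r') x.2)
  simp only [add_zero] at h
  rw [expect_prod'] at h
  rw [epsAt, epsAt, Finset.expect_mul_expect]
  exact h

/-- The row-column term. -/
theorem term_rowcol {q : ℕ} (hq : Fintype.card F = q) (hDq : D + 2 ≤ q) (τ : Y → E → ZMod 2)
    (r r' : Y) (u : F) :
    𝔼 y : Y, 𝔼 c : Fin (D + 1) → Fin (D + 1) → E,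
        bad F τ r y (rowC c (0 : F)) * bad F τ r' (y + u • r) (colC c u) =
      𝔼 y : Y, 𝔼 a : E, (𝔼 A : Fin D → E, bad F τ r y (Fin.cons a A : Fin (D + 1) → E)) *
        𝔼 B : Fin D → E, bad F τ r' y (Fin.cons a B : Fin (D + 1) → E) := by
  have h1 : ∀ (y : Y) (c : Fin (D + 1) → Fin (D + 1) → E),
      bad F τ r y (rowC c (0 : F)) = bad F τ r (y + u • r) (shc u (rowC c (0 : F))) := by
    intro y c
    rw [bad, bad, tsum_shift]
  simp only [h1]
  rw [expect_shift (u • r) (fun y => 𝔼 c : Fin (D + 1) → Fin (D + 1) → E,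
    bad F τ r y (shc u (rowC c (0 : F))) * bad F τ r' y (colC c u))]
  refine expect_congr rfl fun y _ => ?_
  have h := expect_affine _ (rowcol_surj (E := E) hq hDq u) 0
    (fun x : E × (Fin D → E) × (Fin D → E) =>
      bad F τ r y (Fin.cons x.1 x.2.1 : Fin (D + 1) → E) *
        bad F τ r' y (Fin.cons x.1 x.2.2 : Fin (D + 1) → E))
  simp only [add_zero] at h
  rw [expect_prod'] at h
  simp only [Finset.expect_mul_expect]
  have e2 : ∀ a : E, 𝔼 b : (Fin D → E) × (Fin D → E),
      bad F τ r y (Fin.cons a b.1 : Fin (D + 1) → E) *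
        bad F τ r' y (Fin.cons a b.2 : Fin (D + 1) → E) =
      𝔼 A : Fin D → E, 𝔼 B : Fin D → E, bad F τ r y (Fin.cons a A : Fin (D + 1) → E) *
        bad F τ r' y (Fin.cons a B : Fin (D + 1) → E) := fun a => expect_prod' _
  simp only [e2] at h
  rw [← h]
  refine expect_congr rfl fun c _ => ?_
  have e3 : (Fin.cons (colC c u 0) (fun j : Fin D => shc u (rowC c (0 : F)) j.succ) :
      Fin (D + 1) → E) = shc u (rowC c (0 : F)) := by
    have : colC c u 0 = shc u (rowC c (0 : F)) 0 := by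
      rw [shc_head, rowC_zero]; rfl
    rw [this]
    exact Fin.cons_self_tail _
  have e4 : (Fin.cons (colC c u 0) (fun j : Fin D => colC c u j.succ) :
      Fin (D + 1) → E) = colC c u := Fin.cons_self_tail _
  show _ = bad F τ r y (Fin.cons (colC c u 0) (fun j : Fin D => shc u (rowC c (0 : F)) j.succ) :
      Fin (D + 1) → E) * bad F τ r' y (Fin.cons (colC c u 0) (fun j : Fin D => colC c u j.succ) :
      Fin (D + 1) → E)
  rw [e3, e4]

theorem epsDir_row (τ : Y → E → ZMod 2) (r : Y) :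
    𝔼 y : Y, 𝔼 c : Fin (D + 1) → Fin (D + 1) → E, bad F τ r y (rowC c (0 : F)) =
      epsDir F D τ r := by
  refine expect_congr rfl fun y _ => ?_
  have h := expect_affine _ (rowHom_zero_surj (F := F) (E := E) (D := D)) 0
    (fun x => bad F τ r y x)
  simp only [add_zero] at h
  exact h

/-- The grid inequality for two fixed directions. -/
theorem star_fix {q : ℕ} (hq : Fintype.card F = q) (hD : 1 ≤ D) (hDq : D + 2 ≤ q)
    (τ : Y → E → ZMod 2) (r r' : Y) :
    epsDir F D τ r ≤
      ∑ u' ∈ univ.erase (0 : F), 𝔼 y : Y, epsAt F D τ r y * epsAt F D τ r (y + u' • r') +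
      ∑ _u : F, 𝔼 y : Y, 𝔼 a : E,
        (𝔼 A : Fin D → E, bad F τ r y (Fin.cons a A : Fin (D + 1) → E)) *
        𝔼 B : Fin D → E, bad F τ r' y (Fin.cons a B : Fin (D + 1) → E) := by
  rw [← epsDir_row]
  have h : ∀ (y : Y) (c : Fin (D + 1) → Fin (D + 1) → E), bad F τ r y (rowC c (0 : F)) ≤
      ∑ u' ∈ univ.erase (0 : F), bad F τ r y (rowC c (0 : F)) *
        bad F τ r (y + u' • r') (rowC c u') +
      ∑ u : F, bad F τ r y (rowC c (0 : F)) * bad F τ r' (y + u • r) (colC c u) := by
    intro y c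
    have := parity_one (R := fun u' => tsum F τ r (y + u' • r') (rowC c u'))
      (C := fun u => tsum F τ r' (y + u • r) (colC c u)) (grid_sum τ r r' y c)
    simpa [bad] using this
  refine (expect_mono fun y => expect_mono fun c => h y c).trans (le_of_eq ?_)
  simp only [Finset.expect_add_distrib, Finset.expect_sum_comm]
  congr 1
  · exact sum_congr rfl fun u' hu' => term_rows hD τ r r' (ne_of_mem_erase hu')
  · exact sum_congr rfl fun u _ => term_rowcol hq hDq τ r r' u

omit [DecidableEq F] in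
theorem eps_eq_del (r : ι → Y) (τ : Y → E → ZMod 2) :
    eps F D r τ = 𝔼 y : Y, 𝔼 c : E, del F D r τ y c := by
  simp only [eps, epsDir, epsAt, del]
  rw [Finset.expect_comm]
  refine expect_congr rfl fun y _ => ?_
  simp only [expect_cons (M := E)]
  rw [Finset.expect_comm]

/-- Inequality (*). -/
theorem star {q : ℕ} (hq : Fintype.card F = q) (hD : 1 ≤ D) (hDq : D + 2 ≤ q) (r : ι → Y)
    {A lam : ℝ} (hlam : 0 ≤ lam) (hM : Mix F r A lam) (τ : Y → E → ZMod 2) :
    eps F D r τ ≤ (q - 1) * 𝔼 i : ι, (A * epsDir F D τ (r i) ^ 2 + lam * epsDir F D τ (r i)) +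
      q * 𝔼 y : Y, 𝔼 c : E, del F D r τ y c ^ 2 := by
  have h1 : eps F D r τ = 𝔼 i : ι, 𝔼 _i' : ι, epsDir F D τ (r i) := by
    rw [eps]
    exact expect_congr rfl fun i _ => (Fintype.expect_const _).symm
  rw [h1]
  refine (expect_mono fun i => expect_mono fun i' => star_fix hq hD hDq τ (r i) (r i')).trans ?_
  simp only [Finset.expect_add_distrib, Finset.expect_sum_comm]
  refine add_le_add ?_ ?_
  · have hcard : (#(univ.erase (0 : F)) : ℝ) = q - 1 := by
      rw [card_erase_of_mem (mem_univ _), card_univ, hq, Nat.cast_sub (by omega), Nat.cast_one]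
    rw [← hcard, ← nsmul_eq_mul, ← sum_const]
    refine sum_le_sum fun u' hu' => ?_
    rw [← Finset.expect_add_distrib]
    refine expect_mono fun i => ?_
    refine (hM (fun y => epsAt F D τ (r i) y) (fun y => epsAt_nonneg _ _ _) u'
      (ne_of_mem_erase hu')).trans ?_
    refine add_le_add le_rfl (mul_le_mul_of_nonneg_left ?_ hlam)
    refine expect_mono fun y => ?_
    have h0 := epsAt_nonneg (F := F) (D := D) τ (r i) y
    have h1 := epsAt_le_one (F := F) (D := D) τ (r i) y
    nlinarith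
  · rw [sum_const, card_univ, hq, nsmul_eq_mul]
    refine le_of_eq ?_
    congr 1
    have h2 : ∀ i i' : ι, (𝔼 y : Y, 𝔼 a : E,
        (𝔼 A : Fin D → E, bad F τ (r i) y (Fin.cons a A : Fin (D + 1) → E)) *
        𝔼 B : Fin D → E, bad F τ (r i') y (Fin.cons a B : Fin (D + 1) → E)) =
      𝔼 y : Y, 𝔼 a : E, (𝔼 A : Fin D → E, bad F τ (r i) y (Fin.cons a A : Fin (D + 1) → E)) *
        𝔼 B : Fin D → E, bad F τ (r i') y (Fin.cons a B : Fin (D + 1) → E) := fun _ _ => rfl
    have h3 : ∀ (y : Y) (c : E), del F D r τ y c ^ 2 = 𝔼 i : ι, 𝔼 i' : ι,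
        (𝔼 A : Fin D → E, bad F τ (r i) y (Fin.cons c A : Fin (D + 1) → E)) *
        𝔼 B : Fin D → E, bad F τ (r i') y (Fin.cons c B : Fin (D + 1) → E) := by
      intro y c
      rw [sq, del, Finset.expect_mul_expect]
    simp only [h3]
    rw [Finset.expect_congr rfl fun i _ => Finset.expect_comm _ _ _, Finset.expect_comm]
    refine expect_congr rfl fun y _ => ?_
    rw [Finset.expect_congr rfl fun i _ => Finset.expect_comm _ _ _, Finset.expect_comm]

end main

end Vale.Agent.P318.S
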