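import Vale.Agent.P318.S.LTC

/-!
# The structure of the tables that pass all curve tests
-/

set_option linter.unusedSectionVars false

namespace Vale.Agent.P318.S

open Finset Polynomial
open scoped BigOperators

section dual

variable {F : Type*} [Field F] [Fintype F] [CharP F 2]

theorem phi_sep (φ : F →+ ZMod 2) (hφ : φ ≠ 0) {s : F} (h : ∀ a, φ (a * s) = 0) : s = 0 := by
  by_contra hs
  apply hφ
  ext a
  have := h (a * s⁻¹)
  rwa [mul_assoc, inv_mul_cancel₀ hs, mul_one] at this

theorem dual_surj (φ : F →+ ZMod 2) (hφ : φ ≠ 0) (χ : F →+ ZMod 2) :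
    ∃ s : F, ∀ a, χ a = φ (a * s) := by
  classical
  let _ : Fintype (F →+ ZMod 2) := Fintype.ofFinite _
  let T : F → (F →+ ZMod 2) := fun s => φ.comp (AddMonoidHom.mulRight s)
  have hT : Function.Injective T := by
    intro s s' h
    have h1 : ∀ a, φ (a * (s - s')) = 0 := by
      intro a
      have h2 : φ (a * s) = φ (a * s') := DFunLike.congr_fun h a
      rw [mul_sub, map_sub, h2, sub_self]
    exact sub_eq_zero.1 (phi_sep φ hφ h1)
  have hcard : Fintype.card F = Fintype.card (F →+ ZMod 2) := by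
    have := card_dual (Y := F) (fun y => CharTwo.add_self_eq_zero y)
    exact_mod_cast this.symm
  obtain ⟨s, hs⟩ := ((Fintype.bijective_iff_injective_and_card T).2 ⟨hT, hcard⟩).2 χ
  exact ⟨s, fun a => by rw [← hs]; rfl⟩

end dual

section two

variable {F : Type*} [Field F] [Fintype F] [DecidableEq F]

theorem exists_two_poly {q D : ℕ} (hq : Fintype.card F = q) (hD : q ≤ 2 * D + 1) :
    ∃ P Q : F[X], P.natDegree ≤ D ∧ Q.natDegree ≤ D ∧ P.eval 0 = 1 ∧ Q.eval 0 = 1 ∧
      ∀ u ≠ 0, P.eval u = 0 ∨ Q.eval u = 0 := by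
  have hc : #(univ.erase (0 : F)) = q - 1 := by
    rw [card_erase_of_mem (mem_univ _), card_univ, hq]
  obtain ⟨A, hA, hAc⟩ := Finset.exists_subset_card_eq (s := univ.erase (0 : F))
    (n := min D (q - 1)) (by rw [hc]; exact min_le_right _ _)
  set B := univ.erase (0 : F) \ A with hB
  have hBc : #B ≤ D := by
    rw [hB, card_sdiff_of_subset hA, hc, hAc]
    omega
  have hz : ∀ S : Finset F, 0 ∉ S → ∃ P : F[X], P.natDegree ≤ #S ∧ P.eval 0 = 1 ∧
      ∀ u ∈ S, P.eval u = 0 := by
    intro S hS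
    refine ⟨∏ a ∈ S, (1 - C a⁻¹ * X), ?_, ?_, ?_⟩
    · refine (natDegree_prod_le _ _).trans ?_
      refine (Finset.sum_le_card_nsmul _ _ 1 fun a _ => ?_).trans (by simp)
      refine (natDegree_sub_le _ _).trans ?_
      simp only [natDegree_one]
      exact max_le (by omega) ((natDegree_C_mul_le _ _).trans natDegree_X_le)
    · rw [eval_prod]
      exact Finset.prod_eq_one fun a _ => by simp
    · intro u hu
      rw [eval_prod]
      refine Finset.prod_eq_zero hu ?_
      have : u ≠ 0 := fun h => hS (h ▸ hu)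
      simp [this]
  have h0A : (0 : F) ∉ A := fun h => by simpa using hA h
  have h0B : (0 : F) ∉ B := fun h => by simp [hB] at h
  obtain ⟨P, hP1, hP2, hP3⟩ := hz A h0A
  obtain ⟨Q, hQ1, hQ2, hQ3⟩ := hz B h0B
  refine ⟨P, Q, hP1.trans (hAc.le.trans (min_le_left _ _)), hQ1.trans hBc, hP2, hQ2, ?_⟩
  intro u hu
  by_cases huA : u ∈ A
  · exact Or.inl (hP3 u huA)
  · exact Or.inr (hQ3 u (by simp [hB, hu, huA]))

theorem crv_coeff {M : Type*} [AddCommGroup M] [Module F M] {D : ℕ} {P : F[X]}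
    (hP : P.natDegree ≤ D) (c : M) (u : F) :
    crv (fun j : Fin (D + 1) => P.coeff j • c) u = P.eval u • c := by
  simp only [crv, smul_smul]
  rw [← sum_smul, Fin.sum_univ_eq_sum_range (fun j => u ^ j * P.coeff j) (D + 1),
    eval_eq_sum_range' (Nat.lt_succ_of_le hP)]
  congr 1
  exact sum_congr rfl fun j _ => mul_comm _ _

end two

section struct

variable {F Y E ρ : Type*} [Field F] [Fintype F] [DecidableEq F] [CharP F 2]
  [AddCommGroup Y] [Module F Y] [AddCommGroup E] [Module F E]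

omit [CharP F 2] in
/-- The tables are affine on the fibres. -/
theorem affine_of_tests {q D : ℕ} (hq : Fintype.card F = q) (hD : q ≤ 2 * D + 1)
    (τ : Y → E → ZMod 2) (r : Y)
    (h : ∀ (y : Y) (C : Fin (D + 1) → E), tsum F τ r y C = 0) (y : Y) (c c' : E) :
    τ y (c + c') + τ y c + τ y c' + τ y 0 = 0 := by
  obtain ⟨P, Q, hP, hQ, hP0, hQ0, hPQ⟩ := exists_two_poly hq hD
  have key : ∀ c c' : E, ∑ u : F, τ (y + u • r) (P.eval u • c + Q.eval u • c') = 0 := by
    intro c c'
    have := h y ((fun j : Fin (D + 1) => P.coeff j • c) + fun j : Fin (D + 1) => Q.coeff j • c')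
    rw [tsum] at this
    simpa only [crv_add, crv_coeff hP, crv_coeff hQ] using this
  have h1 := key c c'
  have h2 := key c 0
  have h3 := key 0 c'
  have h4 := key 0 0
  have h5 : ∑ u : F, (τ (y + u • r) (P.eval u • c + Q.eval u • c') +
      τ (y + u • r) (P.eval u • c + Q.eval u • (0 : E)) +
      τ (y + u • r) (P.eval u • (0 : E) + Q.eval u • c') +
      τ (y + u • r) (P.eval u • (0 : E) + Q.eval u • (0 : E))) = 0 := by
    simp only [sum_add_distrib, h1, h2, h3, h4, add_zero]
  rw [Finset.sum_eq_single (0 : F)] at h5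
  · simpa [hP0, hQ0] using h5
  · intro u _ hu
    rcases hPQ u hu with h6 | h6
    · simp only [h6, zero_smul, smul_zero, zero_add]
      generalize τ (y + u • r) (Q.eval u • c') = a
      generalize τ (y + u • r) 0 = b
      revert a b; decide
    · simp only [h6, zero_smul, smul_zero, add_zero]
      generalize τ (y + u • r) (P.eval u • c) = a
      generalize τ (y + u • r) 0 = b
      revert a b; decide
  · simp

variable [Fintype ρ] [DecidableEq ρ]

/-- Structure theorem. -/
theorem struct (φ : F →+ ZMod 2) (hφ : φ ≠ 0) {q D : ℕ} (hq : Fintype.card F = q)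
    (hD : q ≤ 2 * D + 1) (hDq : D + 2 ≤ q) {ι : Type*} (r : ι → Y) (τ : Y → (ρ → F) → ZMod 2)
    (I : Finset ι) (hI : I.Nonempty)
    (h : ∀ i ∈ I, ∀ (y : Y) (C : Fin (D + 1) → ρ → F), tsum F τ (r i) y C = 0) :
    ∃ (b : Y → ZMod 2) (s : Y → ρ → F), τ = word φ b s ∧
      (∀ i ∈ I, ∀ y, ∑ u : F, b (y + u • r i) = 0) ∧
      ∀ i ∈ I, ∀ y, Low (q - 2 - D) fun u : F => s (y + u • r i) := by
  obtain ⟨i0, hi0⟩ := hI
  have haff := affine_of_tests hq hD τ (r i0) (h i0 hi0)
  have h2 : ∀ a : ZMod 2, a + a = 0 := by decide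
  let L : Y → (ρ → F) →+ ZMod 2 := fun y =>
    { toFun := fun c => τ y c + τ y 0
      map_zero' := h2 _
      map_add' := fun c c' => by
        have := haff y c c'
        generalize τ y (c + c') = a1 at *
        generalize τ y c = a2 at *
        generalize τ y c' = a3 at *
        generalize τ y 0 = a4 at *
        revert a1 a2 a3 a4; decide }
  have hL : ∀ y (j : ρ), ∃ s : F, ∀ a, L y (Pi.single j a) = φ (a * s) := fun y j =>
    dual_surj φ hφ ((L y).comp (AddMonoidHom.single (fun _ : ρ => F) j))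
  choose s hs using hL
  have hword : ∀ y c, τ y c = τ y 0 + φ (∑ j, c j * s y j) := by
    intro y c
    have e1 : L y c = φ (∑ j, c j * s y j) := by
      have : c = ∑ j, Pi.single j (c j) := (Finset.univ_sum_single c).symm
      conv_lhs => rw [this]
      rw [map_sum, map_sum]
      exact sum_congr rfl fun j _ => hs y j _
    rw [← e1]
    show τ y c = τ y 0 + (τ y c + τ y 0)
    generalize τ y c = a
    generalize τ y 0 = b
    revert a b; decide
  have hb : ∀ i ∈ I, ∀ y, ∑ u : F, τ (y + u • r i) 0 = 0 := by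
    intro i hi y
    have := h i hi y 0
    simpa [tsum, crv] using this
  refine ⟨fun y => τ y 0, s, ?_, hb, ?_⟩
  · funext y c
    exact hword y c
  · intro i hi y
    refine low_of_moments hq hDq _ fun j hj => ?_
    funext k
    rw [Finset.sum_apply]
    show ∑ u : F, (u ^ j • s (y + u • r i)) k = 0
    refine phi_sep φ hφ fun a => ?_
    have h5 := h i hi y (Pi.single (⟨j, by omega⟩ : Fin (D + 1)) (Pi.single k a))
    have h6 : ∀ u : F, crv (Pi.single (⟨j, by omega⟩ : Fin (D + 1)) (Pi.single k a) :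
        Fin (D + 1) → ρ → F) u = Pi.single k (u ^ j * a) := by
      intro u
      rw [crv, Finset.sum_eq_single (⟨j, by omega⟩ : Fin (D + 1))]
      · rw [Pi.single_eq_same]
        funext m
        by_cases hm : m = k
        · subst hm; simp
        · simp [Pi.single_eq_of_ne hm]
      · intro m _ hm
        rw [Pi.single_eq_of_ne hm, smul_zero]
      · simp
    rw [tsum] at h5
    simp only [h6] at h5
    have h7 : ∀ u : F, τ (y + u • r i) (Pi.single k (u ^ j * a)) =
        τ (y + u • r i) 0 + φ (u ^ j * a * s (y + u • r i) k) := by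
      intro u
      rw [hword, Finset.sum_eq_single k]
      · rw [Pi.single_eq_same]
      · intro m _ hm
        rw [Pi.single_eq_of_ne hm, zero_mul]
      · simp
    simp only [h7, sum_add_distrib, hb i hi y, zero_add] at h5
    rw [← map_sum] at h5
    rw [mul_sum, ← h5]
    congr 1
    exact sum_congr rfl fun u _ => by rw [Pi.smul_apply, smul_eq_mul]; ring

end struct

section final

variable {F Y ι ρ : Type*} [Field F] [Fintype F] [DecidableEq F] [CharP F 2]
  [AddCommGroup Y] [Module F Y] [Fintype Y] [DecidableEq Y] [Fintype ι] [Nonempty ι]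
  [Fintype ρ] [DecidableEq ρ]

/-- LTC + structure. -/
theorem ltc_structure (φ : F →+ ZMod 2) (hφ : φ ≠ 0) {q D : ℕ} (hq : Fintype.card F = q)
    (hD : q ≤ 2 * D + 1) (hD2 : D + 2 ≤ q) (r : ι → Y) (hr : ∀ i, r i ≠ 0) {lam : ℝ}
    (hb : CharBd r lam) (hlam : (q : ℝ) * lam ≤ 1 / 16) (σ : Y → (ρ → F) → ZMod 2)
    (hε : eps F D r σ ≤ 1 / (160 * (q : ℝ) ^ 2)) :
    ∃ (b : Y → ZMod 2) (s : Y → ρ → F) (I : Finset ι), I.Nonempty ∧
      fdist σ (word φ b s) ≤ 3 * eps F D r σ / q ∧
      (1 - 4 * q * eps F D r σ) * Fintype.card ι ≤ #I ∧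
      (∀ i ∈ I, ∀ y, ∑ u : F, b (y + u • r i) = 0) ∧
      ∀ i ∈ I, ∀ y, Low (q - 2 - D) fun u : F => s (y + u • r i) := by
  have hNt : Nontrivial Y := by
    obtain ⟨i⟩ := (inferInstance : Nonempty ι)
    exact ⟨⟨r i, 0, hr i⟩⟩
  have hlam0 : 0 ≤ lam := hb.nonneg (two_torsion (F := F))
  have hD1 : 1 ≤ D := by
    have : 2 ≤ q := by
      rw [← hq]; exact Fintype.one_lt_card
    omega
  obtain ⟨τ, h1, I, h2, h3, h4⟩ := ltc hq hD1 hD2 r hr hlam0 hlam (hb.mix hlam0) σ hε
  obtain ⟨b, s, h5, h6, h7⟩ := struct φ hφ hq hD hD2 r τ I h2 h4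
  exact ⟨b, s, I, h2, h5 ▸ h1, h3, h6, h7⟩

end final

end Vale.Agent.P318.S
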